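import Vale.Agent.P231.ChW.RankCF

/-!
# P231, stage 3: Newton's recursion and an additional line
-/

set_option linter.unusedSectionVars false

open Finset

namespace Vale.Agent.P231.XC

open ChW

section

variable {K R : Type*} [Field K] [CharZero K] [CommRing R] [Algebra K R]

/-- the previous term -/
def pre (e : ℕ → R) (j : ℕ) : R := if j = 0 then 0 else e (j - 1)

@[simp] theorem pre_zero (e : ℕ → R) : pre e 0 = 0 := rfl

@[simp] theorem pre_succ (e : ℕ → R) (j : ℕ) : pre e (j + 1) = e j := by
  rw [pre, if_neg (Nat.succ_ne_zero j), Nat.add_sub_cancel]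

theorem newton_line {s e : ℕ → R} (h : NewtonRec K s e) (x : R) :
    NewtonRec K (fun k => s k + x ^ k) (fun j => e j + x * pre e j) := by
  refine ⟨by simp [h.1], fun j => ?_⟩
  have h1 : ∑ i ∈ range (j + 1), (-1 : K) ^ i • (s (i + 1) * pre e (j - i)) =
      (j : K) • e j := by
    cases j with
    | zero => simp
    | succ j =>
      rw [sum_range_succ, Nat.sub_self, pre_zero, mul_zero, smul_zero, add_zero]
      have h2 := h.2 j
      rw [Nat.cast_succ, h2]
      refine sum_congr rfl fun i hi => ?_
      have hi' : i ≤ j := Nat.lt_succ_iff.1 (mem_range.1 hi)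
      rw [Nat.succ_sub hi', pre_succ]
  have h3 : ∑ i ∈ range (j + 1), (-1 : K) ^ i • (x ^ (i + 1) * (e (j - i) + x * pre e (j - i))) =
      x * e j := by
    have h4 : ∀ k, k ≤ j → ∑ i ∈ range k, (-1 : K) ^ i •
        (x ^ (i + 1) * (e (j - i) + x * pre e (j - i))) =
        x * e j - (-1 : K) ^ k • (x ^ (k + 1) * e (j - k)) := by
      intro k hk
      induction k with
      | zero => simp
      | succ k ih =>
        rw [sum_range_succ, ih (by omega)]
        have h5 : j - k = (j - (k + 1)) + 1 := by omega
        have h6 : pre e (j - k) = e (j - (k + 1)) := by rw [h5, pre_succ]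
        rw [h6, mul_add, smul_add, pow_succ (-1 : K) k, mul_smul, neg_one_smul, smul_neg,
          sub_neg_eq_add]
        have h7 : x ^ (k + 1) * (x * e (j - (k + 1))) = x ^ (k + 1 + 1) * e (j - (k + 1)) := by
          ring
        rw [h7]
        abel
    rw [sum_range_succ, h4 j le_rfl, Nat.sub_self, pre_zero, mul_zero, add_zero]
    abel
  have h8 : ∀ i, (-1 : K) ^ i • ((s (i + 1) + x ^ (i + 1)) * (e (j - i) + x * pre e (j - i))) =
      (-1 : K) ^ i • (s (i + 1) * e (j - i)) +
      x * ((-1 : K) ^ i • (s (i + 1) * pre e (j - i))) +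
      (-1 : K) ^ i • (x ^ (i + 1) * (e (j - i) + x * pre e (j - i))) := by
    intro i
    rw [mul_smul_comm, ← smul_add, ← smul_add]
    congr 1
    ring
  simp only [h8, sum_add_distrib, ← mul_sum]
  rw [h1, h3, ← h.2 j, pre_succ, smul_add, mul_smul_comm, add_assoc, add_smul (j : K) 1 (x * e j),
    one_smul]

/-- the relation of Grothendieck, formally -/
theorem groth {s e e' : ℕ → R} (h : NewtonRec K s e) {x : R}
    (h' : NewtonRec K (fun k => s k + x ^ k) e') (l : ℕ) :
    e l = ∑ i ∈ range (l + 1), (-x) ^ i * e' (l - i) := by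
  have h1 : ∀ j, e' j = e j + x * pre e j := fun j => (h'.unique (newton_line h x)) j
  induction l with
  | zero => simp [h1]
  | succ l ih =>
    rw [sum_range_succ']
    have h2 : ∀ i, (-x) ^ (i + 1) * e' (l + 1 - (i + 1)) = -x * ((-x) ^ i * e' (l - i)) := by
      intro i
      rw [Nat.add_sub_add_right]
      ring
    simp only [h2, ← mul_sum, ← ih, pow_zero, one_mul, Nat.sub_zero, h1 (l + 1), pre_succ]
    ring

end

end Vale.Agent.P231.XC
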