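import Vale.Agent.P231.XC.Eta
import Vale.Agent.P231.XC.Newt
import Vale.Agent.P231.X3.Pull

/-!
# P231, stage 3: the relation of Grothendieck on `S(ξ ⊗ ℂ)`, for forms basic for both flows
-/

set_option linter.unusedSectionVars false
set_option linter.unusedVariables false

open Matrix Set Filter Topology Module
open scoped ContDiff

namespace Vale.Agent.P231.XC

open Fm W H584 ChW X3

noncomputable section

variable {B : Type*} {DB : Dif B} {ι : Type} [Fintype ι] [DecidableEq ι]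
  {P : B → Matrix ι ι ℝ} {l : ℕ} {φ : B × ℝ → B}

/-- the flows on the base: `true` is the flow `φ`, `false` is trivial -/
def famB (DB : Dif B) (φ : B × ℝ → B) (hφ : (DB.prod (Dif.lin ℝ)).Map DB φ) :
    S2T.Fam DB Bool where
  Φ i := if i then φ else Prod.fst
  map i := by
    cases i
    · exact Dif.map_fst
    · exact hφ

theorem famB_B {hφ : (DB.prod (Dif.lin ℝ)).Map DB φ} {w : Form DB} (h : Basic φ hφ w) :
    (famB DB φ hφ).B w := by
  intro i
  cases i
  · exact rfl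
  · exact h

theorem b_fam (hP : ∀ b t, P (φ (b, t)) = P b) (hφ : (DB.prod (Dif.lin ℝ)).Map DB φ) (i : Bool)
    (x : XS P) (t : ℝ) : ((fam φ hP hφ).Φ i (x, t)).b = (famB DB φ hφ).Φ i (x.b, t) := by
  cases i <;> rfl

theorem sm_cP (h : Pj DB P l) : SmM DB (fun b => cplx (P b)) := fun i j => (h.sm i j).ofReal

/-- the projector of the base as a basic idempotent -/
theorem ibB (h : Pj DB P l) (hP : ∀ b t, P (φ (b, t)) = P b)
    (hφ : (DB.prod (Dif.lin ℝ)).Map DB φ) :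
    S2T.IB (famB DB φ hφ) (cM (fun b => cplx (P b)) (sm_cP h)) where
  idem := idem_cM _ fun b => by rw [← cplx_mul, h.idem]
  bas i := by
    cases i
    · exact basicM_cM _ fun _ _ => rfl
    · exact basicM_cM _ fun b t => by rw [show (famB DB φ hφ).Φ true (b, t) = φ (b, t) from rfl, hP]

theorem sm_cX (h : Pj DB P l) : SmM (dX DB P) (fun p : XS P => cplx (P p.b)) := fun i j =>
  ((h.sm i j).comp map_b).ofReal

/-- the projector on the sphere bundle -/
theorem ibX (h : Pj DB P l) (hP : ∀ b t, P (φ (b, t)) = P b)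
    (hφ : (DB.prod (Dif.lin ℝ)).Map DB φ) :
    S2T.IB (fam φ hP hφ) (cM (fun p : XS P => cplx (P p.b)) (sm_cX h)) where
  idem := idem_cM _ fun p => by rw [← cplx_mul, h.idem]
  bas i := by
    cases i
    · exact basicM_cM _ fun p t => rfl
    · exact basicM_cM _ fun p t => by
        change cplx (P (φ (p.b, t))) = _
        rw [hP]

/-- the line -/
theorem ibL (hP : ∀ b t, P (φ (b, t)) = P b) (hφ : (DB.prod (Dif.lin ℝ)).Map DB φ) :
    S2T.IB (fam φ hP hφ) (cM (lin1 (P := P)) (sm_lin1 (DB := DB))) where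
  idem := idem_cM _ lin1_idem
  bas i := by
    cases i
    · exact basicM_cM _ fun p t => lin1_rot p t
    · exact basicM_cM _ fun p t => rfl

theorem cP_lin1 (p : XS P) : cplx (P p.b) * lin1 p = lin1 p := by
  ext i j
  rw [Matrix.mul_apply]
  have h1 := congrFun p.Pz i
  simp only [Matrix.mulVec, dotProduct] at h1
  simp only [lin1, lin, ← mul_assoc, ← Finset.sum_mul]
  rw [h1]

theorem lin1_tr (p : XS P) : (lin1 p)ᵀ = (lin1 p).map (starRingEnd ℂ) := lin_transpose _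

theorem lin1_cP (h : Pj DB P l) (p : XS P) : lin1 p * cplx (P p.b) = lin1 p := by
  have h1 := congrArg (fun A : Matrix ι ι ℂ => (A.map (starRingEnd ℂ))ᵀ) (cP_lin1 p)
  have h2 : ((cplx (P p.b) * lin1 p).map (starRingEnd ℂ))ᵀ = lin1 p * cplx (P p.b) := by
    rw [CS.conj_mul, Matrix.transpose_mul, cplx_conj, cplx_transpose, h.symm, ← Matrix.transpose_map,
      lin1_tr, CS.conj_conj]
  have h3 : ((lin1 p).map (starRingEnd ℂ))ᵀ = lin1 p := by
    rw [← Matrix.transpose_map, lin1_tr, CS.conj_conj]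
  exact h2.symm.trans (h1.trans h3)

/-- the complement of the line -/
def comp1 (p : XS P) : Matrix ι ι ℂ := cplx (P p.b) - lin1 p

theorem sm_comp1 (h : Pj DB P l) : SmM (dX DB P) (comp1 (P := P)) := (sm_cX h).sub sm_lin1

theorem comp1_lin1 (p : XS P) : comp1 p * lin1 p = 0 := by
  rw [comp1, Matrix.sub_mul, cP_lin1, lin1_idem, sub_self]

theorem lin1_comp1 (h : Pj DB P l) (p : XS P) : lin1 p * comp1 p = 0 := by
  rw [comp1, Matrix.mul_sub, lin1_cP h, lin1_idem, sub_self]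

theorem comp1_idem (h : Pj DB P l) (p : XS P) : comp1 p * comp1 p = comp1 p := by
  simp only [comp1]
  rw [Matrix.sub_mul, Matrix.mul_sub, Matrix.mul_sub, ← cplx_mul, h.idem, cP_lin1, lin1_cP h,
    lin1_idem, sub_self, sub_zero]

theorem ibC (h : Pj DB P l) (hP : ∀ b t, P (φ (b, t)) = P b)
    (hφ : (DB.prod (Dif.lin ℝ)).Map DB φ) :
    S2T.IB (fam φ hP hφ) (cM (comp1 (P := P)) (sm_comp1 h)) where
  idem := idem_cM _ (comp1_idem h)
  bas i := by
    cases i
    · exact basicM_cM _ fun p t => by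
        change comp1 (rot (p, t)) = comp1 p
        rw [comp1, lin1_rot]
        rfl
    · exact basicM_cM _ fun p t => by
        change cplx (P (φ (p.b, t))) - _ = _
        rw [hP]
        rfl

theorem trace_cplx (h : Pj DB P l) (b : B) : trace (cplx (P b)) = l := by
  rw [cplx_trace, h.tr]
  simp

theorem rank_comp1 (h : Pj DB P l) (p : XS P) : (comp1 p).rank ≤ l - 1 := by
  have h1 : trace (comp1 p) = (l : ℂ) - 1 := by
    rw [comp1, Matrix.trace_sub, trace_cplx h, lin1, trace_lin p.uni]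
  have h2 := trace_eq_rank (comp1_idem h p)
  rw [h1] at h2
  have h3 : ((comp1 p).rank : ℂ) + 1 = l := by rw [← h2]; ring
  have h4 : (comp1 p).rank + 1 = l := by exact_mod_cast h3
  omega

theorem her_comp1 (h : Pj DB P l) : (cM (comp1 (P := P)) (sm_comp1 h))ᵀ =
    ChW.cj (cM (comp1 (P := P)) (sm_comp1 (DB := DB) h)) := by
  rw [cM_transpose, cj_cM]
  refine cM_congr _ _ fun p => ?_
  rw [comp1, Matrix.transpose_sub, cplx_transpose, h.symm, lin1_tr]
  ext i j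
  simp

/-- the powers of `h` -/
theorem cl_lin1 (hP : ∀ b t, P (φ (b, t)) = P b) (hφ : (DB.prod (Dif.lin ℝ)).Map DB φ) (k : ℕ) :
    (ibL hP hφ).cl k = (ibL (P := P) hP hφ).cl 1 ^ k := by
  refine Subtype.ext ?_
  change sF k _ = _
  have h1 := sC_rankOne (idem_cM (sm_lin1 (DB := DB)) (lin1_idem (P := P)))
    (rankOne_cM (sm_lin1 (DB := DB)) lin1_idem fun p => trace_lin p.uni) k
  have h2 : sC 1 (cM (lin1 (P := P)) (sm_lin1 (DB := DB))) = Cx.of (-(et DB P).d) := sC_lin1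
  have h3 : sF k (cM (lin1 (P := P)) (sm_lin1 (DB := DB))) = (-(et DB P).d) ^ k := by
    rw [sF, h1, h2, ← map_pow, Cx.of_re]
  rw [h3]
  have h4 : (((ibL (P := P) hP hφ).cl 1 : (fam φ hP hφ).Bas) : Form (dX DB P)) =
      -(et DB P).d := sF_lin1
  rw [← h4]
  rfl

/-- the class `h = dη` -/
def hcl (hP : ∀ b t, P (φ (b, t)) = P b) (hφ : (DB.prod (Dif.lin ℝ)).Map DB φ) :
    (fam (P := P) φ hP hφ).Bas :=
  ⟨(et DB P).d, by
    have h1 := Form.d_sg (et DB P)
    rw [et_sg, Form.d_neg] at h1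
    exact (neg_eq_iff_eq_neg.1 h1.symm) ▸ by simp, Form.d_d _, fam_B_det hP hφ⟩

/-! ### the Chern forms of the base -/

/-- the Chern forms of `P ⊗ ℂ` -/
def cF (h : Pj DB P l) (k : ℕ) : Form DB :=
  newtE ℝ (fun k => sF k (cM (fun b => cplx (P b)) (sm_cP h))) k

/-- the Chern forms as basic forms -/
def cB (h : Pj DB P l) (hP : ∀ b t, P (φ (b, t)) = P b) (hφ : (DB.prod (Dif.lin ℝ)).Map DB φ)
    (k : ℕ) : (famB DB φ hφ).Bas := newtE ℝ (fun k => (ibB h hP hφ).cl k) k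

theorem coe_cB (h : Pj DB P l) (hP : ∀ b t, P (φ (b, t)) = P b)
    (hφ : (DB.prod (Dif.lin ℝ)).Map DB φ) (k : ℕ) : (cB h hP hφ k : Form DB) = cF h k :=
  ((newtE_spec (K := ℝ) (fun k => (ibB h hP hφ).cl k)).map (famB DB φ hφ).Bas.val).unique
    (newtE_spec (K := ℝ) (fun k => sF k (cM (fun b => cplx (P b)) (sm_cP h)))) k

/-- pull-back from the base -/
def plb (hP : ∀ b t, P (φ (b, t)) = P b) (hφ : (DB.prod (Dif.lin ℝ)).Map DB φ) :
    (famB DB φ hφ).Bas →ₐ[ℝ] (fam (P := P) φ hP hφ).Bas :=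
  S2T.Fam.pl (Ψ := fam (P := P) φ hP hφ) (Θ := famB DB φ hφ) map_b (b_fam hP hφ)

theorem coe_plb (hP : ∀ b t, P (φ (b, t)) = P b) (hφ : (DB.prod (Dif.lin ℝ)).Map DB φ)
    (w : (famB DB φ hφ).Bas) :
    (plb (P := P) hP hφ w : Form (dX DB P)) = Form.pull XS.b map_b w.1 := rfl

theorem plb_cl (h : Pj DB P l) (hP : ∀ b t, P (φ (b, t)) = P b)
    (hφ : (DB.prod (Dif.lin ℝ)).Map DB φ) (k : ℕ) :
    plb hP hφ ((ibB h hP hφ).cl k) = (ibX h hP hφ).cl k := by
  refine ((ibB h hP hφ).pl_cl (Ψ := fam (P := P) φ hP hφ) map_b (b_fam hP hφ) k).trans ?_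
  refine S2T.IB.cl_congr _ _ ?_ k
  exact map_pullC_cM _ map_b

theorem ibX_eq (h : Pj DB P l) : cM (comp1 (P := P)) (sm_comp1 h) +
    cM (lin1 (P := P)) (sm_lin1 (DB := DB)) = cM (fun p : XS P => cplx (P p.b)) (sm_cX h) := by
  rw [cM_add]
  exact cM_congr _ _ fun p => by rw [comp1, sub_add_cancel]

theorem cl_split (h : Pj DB P l) (hP : ∀ b t, P (φ (b, t)) = P b)
    (hφ : (DB.prod (Dif.lin ℝ)).Map DB φ) (k : ℕ) :
    (fam φ hP hφ).qm ((ibX h hP hφ).cl k) = (fam φ hP hφ).qm ((ibC h hP hφ).cl k) +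
      (fam φ hP hφ).qm ((ibL hP hφ).cl 1) ^ k := by
  have h1 : cM (comp1 (P := P)) (sm_comp1 h) * cM (lin1 (P := P)) (sm_lin1 (DB := DB)) = 0 := by
    rw [cM_mul]; exact cM_eq_zero _ comp1_lin1
  have h2 : cM (lin1 (P := P)) (sm_lin1 (DB := DB)) * cM (comp1 (P := P)) (sm_comp1 h) = 0 := by
    rw [cM_mul]; exact cM_eq_zero _ (lin1_comp1 h)
  have h4 := (ibC h hP hφ).cl_add (ibL hP hφ) h1 h2 k
  have h5 := ((ibC h hP hφ).add (ibL hP hφ) h1 h2).cl_congr (ibX h hP hφ) (ibX_eq h) k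
  rw [h5] at h4
  rw [h4, cl_lin1 hP hφ k, map_pow]

/-- **the relation of Grothendieck**, in the ring of classes -/
theorem groth_H (h : Pj DB P l) (hl : 1 ≤ l) (hP : ∀ b t, P (φ (b, t)) = P b)
    (hφ : (DB.prod (Dif.lin ℝ)).Map DB φ) :
    ∑ i ∈ Finset.range (l + 1), (fam (P := P) φ hP hφ).qm (hcl hP hφ) ^ i *
      (fam (P := P) φ hP hφ).qm (plb hP hφ (cB h hP hφ (l - i))) = 0 := by
  set Ψ := fam (P := P) φ hP hφ
  have h1 : newtE ℝ (fun k => Ψ.qm ((ibC h hP hφ).cl k)) l = 0 :=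
    (ibC h hP hφ).newton (her_comp1 h) (rankLE_cM (sm_comp1 h) (comp1_idem h) (rank_comp1 h))
      (newtE_spec _) (by omega)
  have h2 : NewtonRec ℝ (fun k => Ψ.qm ((ibC h hP hφ).cl k) + Ψ.qm ((ibL hP hφ).cl 1) ^ k)
      (fun k => Ψ.qm (plb hP hφ (cB h hP hφ k))) := by
    have h3 := ((newtE_spec (K := ℝ) (fun k => (ibB h hP hφ).cl k)).map (plb hP hφ)).map Ψ.qm
    refine h3.congr fun i => ?_
    exact (congrArg Ψ.qm (plb_cl h hP hφ (i + 1))).trans (cl_split h hP hφ (i + 1))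
  have h5 := groth (newtE_spec (K := ℝ) (fun k => Ψ.qm ((ibC h hP hφ).cl k))) h2 l
  rw [h1] at h5
  have h6 : -Ψ.qm ((ibL hP hφ).cl 1) = Ψ.qm (hcl hP hφ) := by
    rw [← map_neg]
    congr 1
    refine Subtype.ext ?_
    have h7 : (((ibL (P := P) hP hφ).cl 1 : Ψ.Bas) : Form (dX DB P)) = -(et DB P).d := sF_lin1
    change -(((ibL (P := P) hP hφ).cl 1 : Ψ.Bas) : Form (dX DB P)) = (et DB P).d
    rw [h7, neg_neg]
  rw [h6] at h5
  exact h5.symm

/-- **the relation of Grothendieck**, unfolded -/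
theorem groth_form (h : Pj DB P l) (hl : 1 ≤ l) (hP : ∀ b t, P (φ (b, t)) = P b)
    (hφ : (DB.prod (Dif.lin ℝ)).Map DB φ) :
    ∃ ρ : Form (dX DB P), (fam φ hP hφ).B ρ ∧
      ∑ i ∈ Finset.range (l + 1), (et DB P).d ^ i * Form.pull XS.b map_b (cF h (l - i)) =
        ρ.d := by
  have h1 := groth_H h hl hP hφ
  rw [show (∑ i ∈ Finset.range (l + 1), (fam (P := P) φ hP hφ).qm (hcl hP hφ) ^ i *
      (fam (P := P) φ hP hφ).qm (plb hP hφ (cB h hP hφ (l - i)))) =
      (fam (P := P) φ hP hφ).qm (∑ i ∈ Finset.range (l + 1), hcl hP hφ ^ i *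
      plb hP hφ (cB h hP hφ (l - i))) by
    rw [map_sum]
    exact Finset.sum_congr rfl fun i _ => by rw [map_mul, map_pow]] at h1
  obtain ⟨ρ, h2, h3⟩ := (fam (P := P) φ hP hφ).exists_of_qm_eq_zero h1
  refine ⟨ρ, h2, ?_⟩
  rw [← h3]
  have h4 := map_sum (fam (P := P) φ hP hφ).Bas.val
    (fun i => hcl hP hφ ^ i * plb hP hφ (cB h hP hφ (l - i))) (Finset.range (l + 1))
  refine Eq.trans ?_ h4.symm
  refine Finset.sum_congr rfl fun i _ => ?_
  rw [map_mul, map_pow]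
  change _ = (et DB P).d ^ i * Form.pull XS.b map_b (cB h hP hφ (l - i) : Form DB)
  rw [coe_cB]

end

end Vale.Agent.P231.XC
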