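import Vale.Agent.P231.XC.Psi
import Vale.Agent.P231.Co.SIPart
import Vale.Agent.P231.H584.Kap

/-!
# P231, stage 3: the transgression, for the lifted flow and for the doubled flow
-/

set_option linter.unusedSectionVars false
set_option linter.unusedVariables false

open MeasureTheory Matrix Set Filter Topology Module
open scoped ContDiff

namespace Vale.Agent.P231.XC

open Fm W H584 ChW X3 SEG

noncomputable section

/-- the pull-back of `dt` by a map which is linear in time -/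
theorem pull_dt_lin {X Y : Type*} {D : Dif X} {D' : Dif Y} {g : X × ℝ → Y × ℝ}
    (hg : (D.prod (Dif.lin ℝ)).Map (D'.prod (Dif.lin ℝ)) g) (c : ℝ)
    (h : ∀ q, (g q).2 = c * q.2) : Form.pull g hg (dt (D := D')) = c • dt (D := D) := by
  rw [dt, dt, Form.pull_d, ← Form.d_smul]
  congr 1
  refine Form.ext_val fun E _ _ _ u x hu => ?_
  rw [Form.pull_val _ _ hu, Form.smul_val,
    Form.fn_val _ (Dif.map_snd (D := D') (D' := Dif.lin ℝ)) (hg hu),
    Form.fn_val _ (Dif.map_snd (D := D) (D' := Dif.lin ℝ)) hu]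
  change algebraMap ℝ (Lam E) (g (u x)).2 = _
  rw [h, map_mul, Algebra.smul_def]

variable {B : Type*} {DB : Dif B} {ι : Type} [Fintype ι] [DecidableEq ι]
  {P : B → Matrix ι ι ℝ} {l : ℕ} {φ : B × ℝ → B}

section Dbl

variable (hP : ∀ b t, P (φ (b, t)) = P b) (hφ : (DB.prod (Dif.lin ℝ)).Map DB φ)

/-- the doubled flow in two steps -/
def gd (φ : B × ℝ → B) (hP : ∀ b t, P (φ (b, t)) = P b) (T : ℝ) (q : XS P × ℝ) : XS P × ℝ :=
  (lft φ hP q, (2 * T)⁻¹ * q.2)

include hφ in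
theorem map_gd (T : ℝ) : ((dX DB P).prod (Dif.lin ℝ)).Map ((dX DB P).prod (Dif.lin ℝ))
    (gd φ hP T) := fun {E} _ _ _ {u x} h => ⟨map_lft hP hφ h, by
  have h2 : Sm (fun y => (u y).2) x := h.2
  filter_upwards [h2] with y hy
  exact contDiffAt_const.mul hy⟩

theorem pull_gd_pr (T : ℝ) (w : Form (dX DB P)) :
    Form.pull (gd φ hP T) (map_gd hP hφ T) (pr w) = Form.pull (lft φ hP) (map_lft hP hφ) w :=
  pull_pull (k := lft φ hP) (map_gd hP hφ T) Dif.map_fst (map_lft hP hφ) (fun q => rfl) w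

theorem pull_dbl (T : ℝ) (w : Form (dX DB P)) :
    Form.pull (dbl φ hP T) (map_dbl hP hφ T) w =
      Form.pull (gd φ hP T) (map_gd hP hφ T) (Form.pull rot map_rot w) :=
  (pull_pull (k := dbl φ hP T) (map_gd hP hφ T) map_rot (map_dbl hP hφ T) (fun q => rfl) w).symm

/-- forms basic for both flows are basic for the doubled flow -/
theorem basic_dbl (T : ℝ) {w : Form (dX DB P)} (hw : (fam φ hP hφ).B w) :
    Basic (dbl φ hP T) (map_dbl hP hφ T) w := by
  have h1 : Form.pull rot map_rot w = pr w := hw false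
  have h2 : Form.pull (lft φ hP) (map_lft hP hφ) w = pr w := hw true
  rw [basic_def, pull_dbl hP hφ, h1, pull_gd_pr hP hφ, h2]

/-- pull-backs from the base -/
theorem pull_dbl_b (T : ℝ) (w : Form DB) :
    Form.pull (dbl φ hP T) (map_dbl hP hφ T) (Form.pull XS.b map_b w) =
      Form.pull (fun p : XS P × ℝ => (p.1.b, p.2)) (map_cyl map_b) (Form.pull φ hφ w) := by
  have hk : ((dX DB P).prod (Dif.lin ℝ)).Map DB (fun q : XS P × ℝ => φ (q.1.b, q.2)) :=
    fun hu => hφ (map_cyl map_b hu)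
  rw [pull_pull (k := fun q : XS P × ℝ => φ (q.1.b, q.2)) (map_dbl hP hφ T) map_b hk
    (fun q => rfl) w, pull_pull (k := fun q : XS P × ℝ => φ (q.1.b, q.2)) (map_cyl map_b) hφ hk
    (fun q => rfl) w]

theorem pull_cyl_pr' (w : Form DB) :
    Form.pull (fun p : XS P × ℝ => (p.1.b, p.2)) (map_cyl map_b) (pr w) =
      pr (Form.pull XS.b map_b w) := by
  have hk : ((dX DB P).prod (Dif.lin ℝ)).Map DB (fun q : XS P × ℝ => q.1.b) :=
    fun hu => map_b (Dif.map_fst hu)
  rw [pr, pull_pull (k := fun q : XS P × ℝ => q.1.b) (map_cyl map_b) Dif.map_fst hk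
    (fun q => rfl) w, pr, pull_pull (k := fun q : XS P × ℝ => q.1.b) Dif.map_fst map_b hk
    (fun q => rfl) w]

theorem basic_dbl_b (T : ℝ) {w : Form DB} (hw : Basic φ hφ w) :
    Basic (dbl φ hP T) (map_dbl hP hφ T) (Form.pull XS.b map_b w) := by
  have h1 : Form.pull φ hφ w = pr w := hw
  rw [basic_def, pull_dbl_b hP hφ, h1, pull_cyl_pr']

/-- the connection form `η - α / 2T` is basic for the doubled flow -/
theorem basic_dbl_et (T : ℝ) {θ : Form DB} (hθ : Form.pull φ hφ θ = pr θ + (2 * T)⁻¹ • dt) :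
    Basic (dbl φ hP T) (map_dbl hP hφ T) (et DB P - Form.pull XS.b map_b θ) := by
  have h1 : Form.pull (dbl φ hP T) (map_dbl hP hφ T) (et DB P) =
      pr (et DB P) + (2 * T)⁻¹ • dt := by
    rw [pull_dbl hP hφ, et_rot]
    refine (map_add (Form.pullA _ (map_gd hP hφ T)) _ _).trans ?_
    have h2 : Form.pull (lft φ hP) (map_lft hP hφ) (et DB P) = pr (et DB P) := basic_et hP hφ
    refine congrArg₂ (· + ·) ((pull_gd_pr hP hφ T (et DB P)).trans h2) ?_
    exact pull_dt_lin (map_gd hP hφ T) (2 * T)⁻¹ fun q => rfl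
  have h3 : Form.pull (dbl φ hP T) (map_dbl hP hφ T) (Form.pull XS.b map_b θ) =
      pr (Form.pull XS.b map_b θ) + (2 * T)⁻¹ • dt := by
    rw [pull_dbl_b hP hφ, hθ]
    refine (map_add (Form.pullA _ (map_cyl map_b)) _ _).trans ?_
    refine congrArg₂ (· + ·) (pull_cyl_pr' θ) ?_
    refine (map_smul (Form.pullA _ (map_cyl map_b)) _ _).trans ?_
    have h4 := pull_dt_lin (D := dX DB P) (D' := DB)
      (g := fun q : XS P × ℝ => (q.1.b, q.2)) (map_cyl map_b) 1 fun q => (one_mul q.2).symm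
    rw [one_smul] at h4
    exact congrArg ((2 * T)⁻¹ • ·) h4
  rw [basic_def]
  refine (map_sub (Form.pullA _ (map_dbl hP hφ T)) _ _).trans ?_
  refine (congrArg₂ (· - ·) h1 h3).trans ?_
  have h5 : pr (et DB P - Form.pull XS.b map_b θ) =
      pr (et DB P) - pr (Form.pull XS.b map_b θ) :=
    map_sub (Form.pullA (Prod.fst : XS P × ℝ → XS P) Dif.map_fst) _ _
  rw [h5]
  abel

end Dbl

/-- the homogeneous part of a transgression -/
theorem psi_part [NeZero l] (h : Pj DB P l) {ψ : Form (dX DB P)} {e : Form DB}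
    (he : Form.IsDeg (2 * l) e) (h1 : ψ.d = Form.pull XS.b map_b e)
    (h2 : (bun h).SI (ob l) ψ = -1) :
    (Form.part (2 * l - 1) ψ).d = Form.pull XS.b map_b e ∧
      (bun h).SI (ob l) (Form.part (2 * l - 1) ψ) = -1 := by
  have hl : 1 ≤ l := Nat.one_le_iff_ne_zero.2 (NeZero.ne l)
  have hk : 2 * l - 1 + 1 = 2 * l := by omega
  refine ⟨?_, ?_⟩
  · rw [← Form.part_succ_d, h1, hk]
    exact (he.pull XS.b map_b).part_eq
  · rw [← (bun h).part_SI (ob l) (j := 2 * l - 1) (k := 0) (by omega), h2, Form.part_neg,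
      Form.part_one, if_pos rfl]

/-- **the transgression for the lifted flow** -/
theorem exists_psi_lft [NeZero l] (h : Pj DB P l) (hP : ∀ b t, P (φ (b, t)) = P b)
    (hφ : (DB.prod (Dif.lin ℝ)).Map DB φ) :
    ∃ ψ : Form (dX DB P), Basic (lft φ hP) (map_lft hP hφ) ψ ∧
      ψ.d = Form.pull XS.b map_b (cF h l) ∧ (bun h).SI (ob l) ψ = -1 ∧
      Form.IsDeg (2 * l - 1) ψ := by
  have h0 : (0 : Form DB).sg = -(0 : Form DB) := by rw [Form.sg_zero, neg_zero]
  have h0' : Basic φ hφ (0 : Form DB).d := by rw [Form.d_zero]; exact Basic.zero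
  obtain ⟨ρ, Q, hρ, hQ, -, -, h1, h2⟩ := exists_psi0 h hP hφ h0 h0'
  have h3 : eE h (0 : Form DB) = cF h l := by
    rw [eE, Finset.sum_eq_single 0]
    · rw [pow_zero, one_mul, Nat.sub_zero]
    · intro i _ hi
      rw [Form.d_zero, zero_pow hi, zero_mul]
    · intro hn
      exact absurd (Finset.mem_range.2 (by omega)) hn
  rw [h3] at h1
  obtain ⟨h4, h5⟩ := psi_part h (isDeg_cF h l) h1 h2
  refine ⟨_, basic_part _ ?_, h4, h5, Form.isDeg_part _ _⟩
  have h6 : Form.pull XS.b (map_b (DB := DB) (P := P)) (0 : Form DB) = 0 :=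
    map_zero (Form.pullA XS.b map_b)
  rw [h6, sub_zero]
  exact Basic.sub (hρ true) (Basic.mul (basic_et hP hφ) (hQ true))

/-- **the transgression for the doubled flow** -/
theorem exists_psi_dbl [NeZero l] (h : Pj DB P l) (hP : ∀ b t, P (φ (b, t)) = P b)
    (hφ : (DB.prod (Dif.lin ℝ)).Map DB φ) (T : ℝ) {θ : Form DB} (hθo : θ.sg = -θ)
    (hθ1 : Form.IsDeg 1 θ) (hθ : Form.pull φ hφ θ = pr θ + (2 * T)⁻¹ • dt) :
    ∃ ψ : Form (dX DB P), Basic (dbl φ hP T) (map_dbl hP hφ T) ψ ∧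
      ψ.d = Form.pull XS.b map_b (eE h θ) ∧ (bun h).SI (ob l) ψ = -1 ∧
      Form.IsDeg (2 * l - 1) ψ := by
  have hθe : Basic φ hφ θ.d := by
    rw [basic_def, Form.pull_d, hθ, Form.d_add, Form.d_smul, H584.dt_d, smul_zero, add_zero]
    exact (Form.pull_d _ Dif.map_fst _).symm
  obtain ⟨ρ, Q, hρ, hQ, -, -, h1, h2⟩ := exists_psi0 h hP hφ hθo hθe
  obtain ⟨h4, h5⟩ := psi_part h (isDeg_eE h hθ1) h1 h2
  refine ⟨_, basic_part _ ?_, h4, h5, Form.isDeg_part _ _⟩
  exact Basic.sub (basic_dbl hP hφ T hρ)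
    (Basic.mul (basic_dbl_et hP hφ T hθ) (basic_dbl hP hφ T hQ))

end

end Vale.Agent.P231.XC
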