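import Vale.Agent.P231.XC.Frame

/-!
# P231, stage 3: the unit sphere bundle of `range P ⊗ ℂ` is a sphere bundle with frames
-/

set_option linter.unusedSectionVars false
set_option linter.unusedVariables false

open Matrix Set Filter Topology Module
open scoped ContDiff

namespace Vale.Agent.P231.XC

open Fm W ChW X3

noncomputable section

variable {B : Type*} {DB : Dif B} {ι : Type} [Fintype ι] [DecidableEq ι]
  {P : B → Matrix ι ι ℝ} {l : ℕ}

/-- the space of orthonormal frames of `P` -/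
def Fr (P : B → Matrix ι ι ℝ) (l : ℕ) : Type _ := {p : B × (Fin l → ι → ℝ) // IsFr (P p.1) p.2}

/-- its diffeology -/
def dFr (DB : Dif B) (P : B → Matrix ι ι ℝ) (l : ℕ) : Dif (Fr P l) :=
  (DB.prod (Dif.lin (Fin l → ι → ℝ))).ind Subtype.val

namespace Fr

/-- the base point -/
def b (p : Fr P l) : B := p.1.1

/-- the vectors -/
def f (p : Fr P l) : Fin l → ι → ℝ := p.1.2

theorem isFr (p : Fr P l) : IsFr (P p.b) p.f := p.2

/-- constructor -/
def mk (b : B) (f : Fin l → ι → ℝ) (h : IsFr (P b) f) : Fr P l := ⟨(b, f), h⟩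

@[simp] theorem mk_b (b : B) (f : Fin l → ι → ℝ) (h : IsFr (P b) f) : (Fr.mk b f h).b = b := rfl

@[simp] theorem mk_f (b : B) (f : Fin l → ι → ℝ) (h : IsFr (P b) f) : (Fr.mk b f h).f = f := rfl

end Fr

theorem map_Fb : (dFr DB P l).Map DB Fr.b := fun h => h.1

theorem map_Ff : (dFr DB P l).Map (Dif.lin (Fin l → ι → ℝ)) Fr.f := fun h => h.2

/-- the matrix of `P` as an operator -/
def opP (P : B → Matrix ι ι ℝ) (b : B) : EuclideanSpace ℝ ι →L[ℝ] EuclideanSpace ℝ ι :=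
  ∑ i, ∑ j, P b i j • ((EuclideanSpace.proj j : EuclideanSpace ℝ ι →L[ℝ] ℝ).smulRight
    (EuclideanSpace.single i (1 : ℝ)))

theorem opP_apply (b : B) (x : EuclideanSpace ℝ ι) (i : ι) :
    opP P b x i = (P b *ᵥ (WithLp.ofLp x)) i := by
  have h1 : opP P b x = ∑ i, ∑ j, P b i j • (x j • (EuclideanSpace.single i (1 : ℝ))) := by
    simp only [opP, _root_.sum_apply, _root_.smul_apply]
    rfl
  rw [h1]
  simp only [Matrix.mulVec, dotProduct, WithLp.ofLp_sum, Finset.sum_apply, PiLp.smul_apply,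
    smul_eq_mul, PiLp.single_apply]
  rw [Finset.sum_eq_single i]
  · refine Finset.sum_congr rfl fun j _ => ?_
    simp
  · intro k _ hk
    refine Finset.sum_eq_zero fun j _ => ?_
    rw [if_neg (Ne.symm hk), mul_zero, mul_zero]
  · simp

theorem sm_opP (hP : SmM DB P) {E : Type} [NormedAddCommGroup E] [NormedSpace ℝ E]
    [FiniteDimensional ℝ E] {u : E → B} {x : E} (hu : DB.At u x) :
    Sm (fun y => opP P (u y)) x := by
  have h1 : ∀ᶠ y in 𝓝 x, ∀ i j, ContDiffAt ℝ ∞ (fun y => P (u y) i j) y :=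
    Filter.eventually_all.2 fun i => Filter.eventually_all.2 fun j => (hP i j).sm hu
  filter_upwards [h1] with y hy
  exact ContDiffAt.sum fun i _ => ContDiffAt.sum fun j _ => (hy i j).smul contDiffAt_const

/-- local frames -/
theorem exists_frames (h : Pj DB P l) {E : Type} [NormedAddCommGroup E] [NormedSpace ℝ E]
    [FiniteDimensional ℝ E] {u : E → B} {x : E} (hu : DB.At u x) (k : ℕ)
    (g : Fin k → EuclideanSpace ℝ ι) (hg : Orthonormal ℝ g)
    (hgx : ∀ a, opP P (u x) (g a) = g a) :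
    ∃ f : Fin k → E → EuclideanSpace ℝ ι, (∀ a, Sm (f a) x) ∧
      (∀ᶠ y in 𝓝 x, Orthonormal ℝ fun a => f a y) ∧
      (∀ᶠ y in 𝓝 x, ∀ a, opP P (u y) (f a y) = f a y) ∧ ∀ a, f a x = g a := by
  have hQ := sm_opP h.sm hu
  have hid : ∀ᶠ y in 𝓝 x, ∀ w, opP P (u y) (opP P (u y) w) = opP P (u y) w := by
    refine Filter.Eventually.of_forall fun y w => ?_
    ext i
    have h1 : WithLp.ofLp (opP P (u y) w) = P (u y) *ᵥ WithLp.ofLp w := by
      ext j
      exact opP_apply _ _ _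
    rw [opP_apply, opP_apply, h1, Matrix.mulVec_mulVec, h.idem]
  induction k with
  | zero =>
    exact ⟨fun a => Fin.elim0 a, fun a => Fin.elim0 a,
      Filter.Eventually.of_forall fun y => ⟨fun a => Fin.elim0 a, fun a => Fin.elim0 a⟩,
      Filter.Eventually.of_forall fun y a => Fin.elim0 a, fun a => Fin.elim0 a⟩
  | succ k ih =>
    obtain ⟨e, h2, h3, h4, h5⟩ := ih (fun a => g a.castSucc)
      (hg.comp _ (Fin.castSucc_injective _)) (fun a => hgx _)
    obtain ⟨f, k1, k2, k3⟩ := FE.step_frame hQ hid h2 h3 h4 (g := g (Fin.last _)) (hg.1 _)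
      (hgx _) (fun a => by
        rw [h5]
        exact hg.2 (Fin.castSucc_lt_last a).ne)
    refine ⟨Fin.snoc (α := fun _ => E → EuclideanSpace ℝ ι) e f, ?_, ?_, ?_, ?_⟩
    · intro a
      refine Fin.lastCases ?_ (fun a => ?_) a
      · rw [Fin.snoc_last]
        exact k1
      · rw [Fin.snoc_castSucc]
        exact h2 a
    · filter_upwards [h3, k3] with y hy1 hy2
      have h6 := FE.orthonormal_snoc hy1 hy2.1 hy2.2.2
      have h7 : (fun a => (Fin.snoc (α := fun _ => E → EuclideanSpace ℝ ι) e f :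
          Fin (k + 1) → E → EuclideanSpace ℝ ι) a y) =
          Fin.snoc (α := fun _ => EuclideanSpace ℝ ι) (fun a => e a y) (f y) := by
        funext a
        refine Fin.lastCases ?_ (fun a => ?_) a
        · simp
        · simp
      rw [h7]
      exact h6
    · filter_upwards [h4, k3] with y hy1 hy2 a
      refine Fin.lastCases ?_ (fun a => ?_) a
      · rw [Fin.snoc_last]
        exact hy2.2.1
      · rw [Fin.snoc_castSucc]
        exact hy1 a
    · intro a
      refine Fin.lastCases ?_ (fun a => ?_) a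
      · rw [Fin.snoc_last]
        exact k2
      · rw [Fin.snoc_castSucc]
        exact h5 a

/-- the rank of the projection -/
theorem exists_onb (h : Pj DB P l) (b : B) : ∃ g : Fin l → EuclideanSpace ℝ ι,
    Orthonormal ℝ g ∧ ∀ a, opP P b (g a) = g a := by
  let f : EuclideanSpace ℝ ι →ₗ[ℝ] EuclideanSpace ℝ ι := (opP P b : _ →ₗ[ℝ] _)
  have hff : ∀ w, f (f w) = f w := fun w => by
    ext i
    have h1 : ∀ w, WithLp.ofLp (opP P b w) = P b *ᵥ WithLp.ofLp w := fun w => by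
      ext j
      exact opP_apply _ _ _
    change opP P b (opP P b w) i = opP P b w i
    rw [opP_apply, opP_apply, h1, Matrix.mulVec_mulVec, h.idem]
  have hp : LinearMap.IsProj (LinearMap.range f) f :=
    ⟨fun x => LinearMap.mem_range_self f x, fun x hx => by
      obtain ⟨y, rfl⟩ := hx
      exact hff y⟩
  have h1 : LinearMap.trace ℝ _ f = trace (P b) := by
    have h2 : f = (WithLp.linearEquiv 2 ℝ (ι → ℝ)).symm.toLinearMap ∘ₗ (Matrix.toLin' (P b)) ∘ₗ
        (WithLp.linearEquiv 2 ℝ (ι → ℝ)).toLinearMap := by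
      ext1 x
      ext i
      exact opP_apply _ _ _
    have h3 := LinearMap.trace_conj' (Matrix.toLin' (P b)) (WithLp.linearEquiv 2 ℝ (ι → ℝ)).symm
    rw [Matrix.trace_toLin'_eq] at h3
    rw [← h3, h2]
    rfl
  have h4 := hp.trace
  rw [h1, h.tr] at h4
  have h5 : finrank ℝ (LinearMap.range f) = l := by exact_mod_cast h4.symm
  let o := (stdOrthonormalBasis ℝ (LinearMap.range f)).reindex (finCongr h5)
  refine ⟨fun a => (o a : EuclideanSpace ℝ ι), ?_, fun a => hp.map_id _ (o a).2⟩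
  exact o.orthonormal.comp_linearIsometry (LinearMap.range f).subtypeₗᵢ

/-- frames exist locally -/
theorem isQuo_F (h : Pj DB P l) : Co.IsQuo (dFr DB P l) DB Fr.b where
  map := map_Fb
  lift := fun {E} _ _ _ {u x} hu => by
    obtain ⟨g, hg, hgx⟩ := exists_onb h (u x)
    obtain ⟨f, h1, h2, h3, h4⟩ := exists_frames h hu l g hg hgx
    have hfr : ∀ᶠ y in 𝓝 x, IsFr (P (u y)) (fun a => WithLp.ofLp (f a y)) := by
      filter_upwards [h2, h3] with y hy1 hy2
      refine ⟨fun a => ?_, fun a b => ?_⟩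
      · ext i
        rw [← opP_apply, hy2]
      · have h5 := orthonormal_iff_ite.1 hy1 a b
        rw [PiLp.inner_apply] at h5
        rw [← h5, dotProduct]
        refine Finset.sum_congr rfl fun i _ => ?_
        simp [mul_comm]
    have hx := hfr.self_of_nhds
    classical
    let G : E → Fr P l := fun y => if hy : IsFr (P (u y)) (fun a => WithLp.ofLp (f a y)) then
      Fr.mk (u y) (fun a => WithLp.ofLp (f a y)) hy else
      Fr.mk (u x) (fun a => WithLp.ofLp (f a x)) hx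
    have hG : ∀ y (hy : IsFr (P (u y)) (fun a => WithLp.ofLp (f a y))),
        G y = Fr.mk (u y) (fun a => WithLp.ofLp (f a y)) hy := fun y hy => dif_pos hy
    refine ⟨G, ?_, ?_⟩
    · have h6 : (DB.prod (Dif.lin (Fin l → ι → ℝ))).At
          (fun y => (u y, fun a => WithLp.ofLp (f a y))) x := by
        refine ⟨hu, ?_⟩
        filter_upwards [Filter.eventually_all.2 h1] with y hy
        refine contDiffAt_pi.2 fun a => contDiffAt_pi.2 fun i => ?_
        exact (contDiffAt_euclidean.1 (hy a)) i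
      refine (DB.prod (Dif.lin (Fin l → ι → ℝ))).congr h6 ?_
      filter_upwards [hfr] with y hy
      exact (congrArg Subtype.val (hG y hy)).symm
    · filter_upwards [hfr] with y hy
      exact congrArg Fr.b (hG y hy)

/-! ### the evaluation -/

theorem uni_of_norm {A : Matrix ι ι ℝ} {f : Fin l → ι → ℝ} (h : IsFr A f) {ξ : Fl l}
    (hξ : ‖ξ‖ = 1) : Uni (cmb f (cz l ξ)) := by
  unfold Uni
  rw [uni_cmb h, uni_cz, hξ]
  simp

variable [NeZero l]

/-- the first unit vector of the model fibre -/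
def ξ0 (l : ℕ) [NeZero l] : Fl l :=
  EuclideanSpace.single ⟨0, Nat.mul_pos two_pos (NeZero.pos l)⟩ 1

theorem norm_ξ0 : ‖ξ0 l‖ = 1 := by
  rw [ξ0, PiLp.norm_single, norm_one]

open Classical in
/-- the evaluation `Fr × S(F) → X` -/
def ev (p : Fr P l × Fl l) : XS P :=
  if h : ‖p.2‖ = 1 then XS.mk p.1.b (cmb p.1.f (cz l p.2)) (cplx_cmb p.1.isFr _)
    (uni_of_norm p.1.isFr h)
  else XS.mk p.1.b (cmb p.1.f (cz l (ξ0 l))) (cplx_cmb p.1.isFr _)
    (uni_of_norm p.1.isFr norm_ξ0)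

@[simp] theorem ev_b (p : Fr P l × Fl l) : (ev p).b = p.1.b := by
  rw [ev]
  split_ifs <;> rfl

theorem ev_z (p : Fr P l × Fl l) (h : ‖p.2‖ = 1) : (ev p).z = cmb p.1.f (cz l p.2) := by
  rw [ev, dif_pos h]
  rfl

theorem ev_z' (f : Fr P l) (ξ : Fl l) (h : ‖ξ‖ = 1) : (ev (f, ξ)).z = cmb f.f (cz l ξ) :=
  ev_z (f, ξ) h

theorem map_ev : (Co.SB (dFr DB P l) (Fl l)).Map (dX DB P) ev := fun {E} _ _ _ {u x} h => by
  have h1 : ∀ᶠ y in 𝓝 x, ‖(u y).2‖ = 1 := h.2
  have h2 : Sm (fun y => (u y).2) x := h.1.2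
  have h3 : Sm (fun y => (u y).1.f) x := map_Ff (DB := DB) (u := fun y => (u y).1) h.1.1
  refine ⟨DB.congr (map_Fb (u := fun y => (u y).1) h.1.1)
    (Filter.Eventually.of_forall fun y => (ev_b (u y)).symm), ?_⟩
  have h4 : Sm (fun y => cmb (u y).1.f (cz l (u y).2)) x := by
    filter_upwards [h2, h3] with y hy2 hy3
    refine contDiffAt_pi.2 fun i => ContDiffAt.sum fun j _ => ?_
    have k1 : ContDiffAt ℝ ∞ (fun y => cz l (u y).2 j) y :=
      (contDiffAt_pi.1 ((czL l).contDiff.contDiffAt.comp y hy2)) j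
    have k2 : ContDiffAt ℝ ∞ (fun y => (u y).1.f j i) y :=
      (contDiffAt_pi.1 ((contDiffAt_pi.1 hy3) j)) i
    exact k1.mul (Complex.ofRealCLM.contDiff.contDiffAt.comp y k2)
  refine h4.congr ?_
  filter_upwards [h1] with y hy
  exact (ev_z _ hy).symm

/-! ### the transition maps -/

/-- the matrix unit on the model fibre -/
def Ejk (l : ℕ) (j k : Fin l) : (Fin l → ℂ) →L[ℝ] (Fin l → ℂ) :=
  (ContinuousLinearMap.single ℝ (fun _ : Fin l => ℂ) j) ∘L
    (ContinuousLinearMap.proj (R := ℝ) (φ := fun _ : Fin l => ℂ) k)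

/-- a real matrix acting on the model fibre -/
def gO (O : Matrix (Fin l) (Fin l) ℝ) : Fl l →L[ℝ] Fl l :=
  ∑ j, ∑ k, O j k • ((czL l).symm.toContinuousLinearMap ∘L Ejk l j k ∘L
    (czL l).toContinuousLinearMap)

theorem cz_gO (O : Matrix (Fin l) (Fin l) ℝ) (ξ : Fl l) :
    cz l (gO O ξ) = cplx O *ᵥ cz l ξ := by
  have h1 : gO O ξ = ∑ j, ∑ k, O j k • (czL l).symm (Ejk l j k (cz l ξ)) := by
    simp only [gO, _root_.sum_apply, _root_.smul_apply]
    rfl
  have h2 : cz l (gO O ξ) = ∑ j, ∑ k, O j k • Ejk l j k (cz l ξ) := by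
    rw [← czL_apply, h1, map_sum]
    refine Finset.sum_congr rfl fun j _ => ?_
    rw [map_sum]
    refine Finset.sum_congr rfl fun k _ => ?_
    rw [map_smul, ContinuousLinearEquiv.apply_symm_apply]
  rw [h2]
  ext i
  simp only [Finset.sum_apply, Pi.smul_apply, Matrix.mulVec, dotProduct, cplx_apply]
  rw [Finset.sum_eq_single i]
  · refine Finset.sum_congr rfl fun k _ => ?_
    change O i k • (Pi.single i (cz l ξ k) : Fin l → ℂ) i = _
    rw [Pi.single_eq_same, Complex.real_smul]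
  · intro j _ hj
    refine Finset.sum_eq_zero fun k _ => ?_
    change O j k • (Pi.single j (cz l ξ k) : Fin l → ℂ) i = 0
    rw [Pi.single_eq_of_ne (Ne.symm hj), smul_zero]
  · simp

theorem det_gO (O : Matrix (Fin l) (Fin l) ℝ) :
    LinearMap.det ((gO O : Fl l →L[ℝ] Fl l) : Fl l →ₗ[ℝ] Fl l) = O.det ^ 2 := by
  have h1 : ((gO O : Fl l →L[ℝ] Fl l) : Fl l →ₗ[ℝ] Fl l) =
      (czL l).symm.toLinearEquiv.toLinearMap ∘ₗ
        ((Matrix.toLin' (cplx O)).restrictScalars ℝ) ∘ₗ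
          ((czL l).symm.toLinearEquiv.symm).toLinearMap := by
    ext1 ξ
    change gO O ξ = (czL l).symm (Matrix.toLin' (cplx O) (czL l ξ))
    rw [ContinuousLinearEquiv.eq_symm_apply]
    exact cz_gO O ξ
  rw [h1, LinearMap.det_conj, LinearMap.det_restrictScalars, LinearMap.det_toLin',
    Algebra.norm_complex_apply]
  have h2 : (cplx O).det = ((O.det : ℝ) : ℂ) := by
    have := (RingHom.map_det (Complex.ofRealHom) O)
    rw [show (O.det : ℂ) = Complex.ofRealHom O.det from rfl, this]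
    rfl
  rw [h2, Complex.normSq_ofReal, sq]

theorem norm_gO {O : Matrix (Fin l) (Fin l) ℝ} (hO : Oᵀ * O = 1) (ξ : Fl l) :
    ‖gO O ξ‖ = ‖ξ‖ := by
  have h1 : ∑ j, (starRingEnd ℂ) (cz l (gO O ξ) j) * cz l (gO O ξ) j =
      ∑ j, (starRingEnd ℂ) (cz l ξ j) * cz l ξ j := by
    rw [cz_gO]
    have h2 : ∀ j, (starRingEnd ℂ) ((cplx O *ᵥ cz l ξ) j) =
        ((fun k => (starRingEnd ℂ) (cz l ξ k)) ᵥ* (cplx Oᵀ)) j := by
      intro j
      simp only [Matrix.mulVec, Matrix.vecMul, dotProduct, cplx_apply, map_sum, map_mul,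
        Complex.conj_ofReal, Matrix.transpose_apply]
      refine Finset.sum_congr rfl fun k _ => ?_
      ring
    have h3 : ∑ j, (starRingEnd ℂ) ((cplx O *ᵥ cz l ξ) j) * (cplx O *ᵥ cz l ξ) j =
        ((fun k => (starRingEnd ℂ) (cz l ξ k)) ᵥ* (cplx Oᵀ)) ⬝ᵥ (cplx O *ᵥ cz l ξ) := by
      simp only [h2]
      rfl
    rw [h3, ← Matrix.dotProduct_mulVec, Matrix.mulVec_mulVec, ← cplx_mul, hO]
    have h4 : cplx (1 : Matrix (Fin l) (Fin l) ℝ) = 1 := by
      ext i j
      by_cases h : i = j <;> simp [h, cplx_apply, Matrix.one_apply]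
    rw [h4, Matrix.one_mulVec]
    rfl
  rw [uni_cz, uni_cz] at h1
  have h5 : ‖gO O ξ‖ ^ 2 = ‖ξ‖ ^ 2 := by exact_mod_cast h1
  exact (sq_eq_sq₀ (norm_nonneg _) (norm_nonneg _)).1 h5

theorem sm_gO {E : Type} [NormedAddCommGroup E] [NormedSpace ℝ E] {O : E → Matrix (Fin l) (Fin l) ℝ}
    {x : E} (hO : ∀ j k, Sm (fun y => O y j k) x) : Sm (fun y => gO (O y)) x := by
  filter_upwards [Filter.eventually_all.2 fun j => Filter.eventually_all.2 fun k => hO j k]
    with y hy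
  exact ContDiffAt.sum fun j _ => ContDiffAt.sum fun k _ => (hy j k).smul contDiffAt_const

/-- the matrix of inner products of two frames -/
def tr2 (f f' : Fin l → ι → ℝ) : Matrix (Fin l) (Fin l) ℝ := fun j k => f j ⬝ᵥ f' k

theorem cmb_tr2 {A : Matrix ι ι ℝ} {f f' : Fin l → ι → ℝ} (h : IsFr A f) (h' : IsFr A f')
    (hA : A = frp f) (c : Fin l → ℂ) : cmb f (cplx (tr2 f f') *ᵥ c) = cmb f' c := by
  have h1 : cof f (cmb f' c) = cplx (tr2 f f') *ᵥ c := by
    ext j
    simp only [cof, cmb, Matrix.mulVec, dotProduct, cplx_apply, tr2, Finset.mul_sum]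
    rw [Finset.sum_comm]
    refine Finset.sum_congr rfl fun k _ => ?_
    push_cast
    rw [Finset.sum_mul]
    refine Finset.sum_congr rfl fun i _ => ?_
    ring
  rw [← h1, cmb_cof, ← hA, cplx_cmb h']

theorem tr2_orth {A : Matrix ι ι ℝ} {f f' : Fin l → ι → ℝ} (h' : IsFr A f')
    (hA : A = frp f) : (tr2 f f')ᵀ * tr2 f f' = 1 := by
  ext j k
  have h1 : f' k = ∑ m, (f m ⬝ᵥ f' k) • f m := by
    rw [← frp_mulVec, ← hA, h'.fix]
  have h2 := h'.on j k
  rw [Matrix.mul_apply, Matrix.one_apply, ← h2]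
  conv_rhs => rw [h1, dotProduct_sum]
  refine Finset.sum_congr rfl fun m _ => ?_
  rw [dotProduct_smul, Matrix.transpose_apply, tr2, tr2, smul_eq_mul, dotProduct_comm (f m) (f' j)]
  ring

theorem det_gO_tr2 {O : Matrix (Fin l) (Fin l) ℝ} (hO : Oᵀ * O = 1) :
    LinearMap.det ((gO O : Fl l →L[ℝ] Fl l) : Fl l →ₗ[ℝ] Fl l) = 1 := by
  have h1 := congrArg Matrix.det hO
  rw [Matrix.det_mul, Matrix.det_transpose, Matrix.det_one] at h1
  rw [det_gO, sq, h1]

theorem sm_tr2 {E : Type} [NormedAddCommGroup E] [NormedSpace ℝ E]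
    {f f' : E → (Fin l → ι → ℝ)} {x : E} (hf : Sm f x) (hf' : Sm f' x) (j k : Fin l) :
    Sm (fun y => tr2 (f y) (f' y) j k) x := by
  filter_upwards [hf, hf'] with y h1 h2
  refine ContDiffAt.sum fun i _ => ContDiffAt.mul ?_ ?_
  · exact (contDiffAt_pi.1 ((contDiffAt_pi.1 h1) j)) i
  · exact (contDiffAt_pi.1 ((contDiffAt_pi.1 h2) k)) i

theorem ev_tr2 (h : Pj DB P l) (f f' : Fr P l) (hy : f.b = f'.b) :
    (∀ ξ, ‖gO (tr2 f.f f'.f) ξ‖ = ‖ξ‖) ∧
      LinearMap.det ((gO (tr2 f.f f'.f) : Fl l →L[ℝ] Fl l) : Fl l →ₗ[ℝ] Fl l) = 1 ∧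
      ∀ ξ, ‖ξ‖ = 1 → ev (f', ξ) = ev (f, gO (tr2 f.f f'.f) ξ) := by
  have hA : P f.b = frp f.f := f.isFr.eq (h.idem _) (h.symm _) (h.tr _)
  have h2 : IsFr (P f.b) f'.f := by
    rw [hy]
    exact f'.isFr
  have h3 := tr2_orth h2 hA
  refine ⟨fun ξ => norm_gO h3 ξ, det_gO_tr2 h3, fun ξ hξ => ?_⟩
  have h4 : ‖gO (tr2 f.f f'.f) ξ‖ = 1 := by rw [norm_gO h3, hξ]
  refine XS.ext ?_ ?_
  · rw [ev_b, ev_b]
    exact hy.symm
  · rw [ev_z' f' ξ hξ, ev_z' f _ h4, cz_gO, cmb_tr2 f.isFr h2 hA]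

theorem ev_cof (h : Pj DB P l) (f : Fr P l) (s : XS P) (hy : f.b = s.b) :
    ‖rz l (cof f.f s.z)‖ = 1 ∧ ev (f, rz l (cof f.f s.z)) = s := by
  have hA : P f.b = frp f.f := f.isFr.eq (h.idem _) (h.symm _) (h.tr _)
  have h2 : cmb f.f (cof f.f s.z) = s.z := by
    rw [cmb_cof, ← hA, hy]
    exact s.Pz
  have h3 : ‖rz l (cof f.f s.z)‖ = 1 := by
    have h4 := uni_cz (rz l (cof f.f s.z))
    have h5 := s.uni
    unfold Uni at h5
    rw [← h2, uni_cmb f.isFr] at h5
    rw [cz_rz, h5] at h4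
    have h6 : ‖rz l (cof f.f s.z)‖ ^ 2 = 1 := by exact_mod_cast h4.symm
    exact (sq_eq_sq₀ (norm_nonneg _) zero_le_one).1 (h6.trans (one_pow 2).symm)
  refine ⟨h3, XS.ext ?_ ?_⟩
  · rw [ev_b]
    exact hy
  · rw [ev_z' f _ h3, cz_rz, h2]

theorem sm_cof {E : Type} [NormedAddCommGroup E] [NormedSpace ℝ E]
    {f : E → (Fin l → ι → ℝ)} {z : E → ι → ℂ} {x : E} (hf : Sm f x) (hz : Sm z x) :
    Sm (fun y => rz l (cof (f y) (z y))) x := by
  have h1 : Sm (fun y => cof (f y) (z y)) x := by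
    filter_upwards [hf, hz] with y h1 h2
    refine contDiffAt_pi.2 fun j => ContDiffAt.sum fun i _ => ContDiffAt.mul ?_ ?_
    · have : ContDiffAt ℝ ∞ (fun y => f y j i) y :=
        (contDiffAt_pi.1 ((contDiffAt_pi.1 h1) j)) i
      exact Complex.ofRealCLM.contDiff.contDiffAt.comp y this
    · exact (contDiffAt_pi.1 h2) i
  filter_upwards [h1] with y hy
  exact (czL l).symm.contDiff.contDiffAt.comp y hy

/-- **the unit sphere bundle of `range P ⊗ ℂ`** -/
theorem bun (h : Pj DB P l) :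
    Co.Bun DB (dX DB P) (dFr DB P l) (Fl l) XS.b Fr.b (ev (P := P) (l := l)) where
  hπ := map_b
  hq := isQuo_F h
  hev := map_ev
  comm := fun {E} _ _ _ {u x} _ => ev_b (u x)
  trans := fun {E} _ _ _ {f f' x} hf hf' hff =>
    ⟨fun y => gO (tr2 (f y).f (f' y).f), sm_gO fun j k => sm_tr2 (map_Ff hf) (map_Ff hf') j k,
      hff.mono fun y hy => ev_tr2 h (f y) (f' y) hy⟩
  lift := fun {E} _ _ _ {s f x} hs hf hsf =>
    ⟨fun y => rz l (cof (f y).f (s y).z), sm_cof (map_Ff hf) (map_z hs),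
      hsf.mono fun y hy => ev_cof h (f y) (s y) hy⟩
  inj := fun {E} _ _ _ {f x} hf ξ ξ' h1 h2 h3 => by
    have h4 := congrArg XS.z h3
    rw [ev_z' _ _ h1, ev_z' _ _ h2] at h4
    have h5 := congrArg (cof (f x).f) h4
    rw [cof_cmb (f x).isFr, cof_cmb (f x).isFr] at h5
    have h6 := congrArg (rz l) h5
    rwa [rz_cz, rz_cz] at h6

end

end Vale.Agent.P231.XC
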