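import Vale.Agent.P231.XC.Pair
import Vale.Agent.P231.S3C.PX
import Vale.Agent.P231.S3S.Std

/-!
# P231, stage 3, S3-E: the pairing lemma for the bundle of negative directions
-/

set_option maxSynthPendingDepth 3
set_option linter.unusedSectionVars false
set_option linter.unusedVariables false

open Bundle Manifold Set Filter Module MeasureTheory
open scoped ContDiff Manifold Topology ENNReal

namespace Vale.Agent.P231.XC

noncomputable section

open Vale.Agent.P234 Vale.Agent.P231 Vale.Agent.P231.Fm Vale.Agent.P231.W Vale.Agent.P231.WR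
open Vale.Agent.P231.WF Vale.Agent.P231.H766 Vale.Agent.P231.S2N Vale.Agent.P231.S3S
open Vale.Agent.P231.H584 Vale.Agent.P231.S3C

variable {E : Type*} [NormedAddCommGroup E] [NormedSpace ℝ E]
  {M : Type*} [MetricSpace M] [ChartedSpace E M]
  [RiemannianBundle (fun x : M => TangentSpace 𝓘(ℝ, E) x)]
  {e : ∀ x : M, TangentSpace 𝓘(ℝ, E) x → M}
  [FiniteDimensional ℝ E] [IsManifold 𝓘(ℝ, E) ∞ M]
  [IsContMDiffRiemannianBundle 𝓘(ℝ, E) ∞ E (fun x : M => TangentSpace 𝓘(ℝ, E) x)]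
  [CompactSpace M] [ConnectedSpace M] [IsRiemannianManifold 𝓘(ℝ, E) M]

variable {D : ℝ} {ι : Type} [Fintype ι] [DecidableEq ι]
variable {F : Facts e} {hD : 0 < D} {hB : InjGE e D} {hdiam : ∀ p q : M, dist p q ≤ D}
  {l : ℕ} {X δ : ι → UT E M → E} {ε : ℝ}

/-- the zero section -/
def zsXi (F : Facts e) (D : ℝ) (X δ : ι → UT E M → E) (ε : ℝ) (v : UT E M) : Xi F D X δ ε where
  v := v
  a := 0
  pm := map_zero _

theorem map_zsXi : (dUT E M).Map (dXi F D X δ ε) (zsXi F D X δ ε) := fun {E'} _ _ _ {u x} hu =>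
  ⟨hu, Sm.of_contDiff (contDiff_const (c := (0 : EuclideanSpace ℝ ι))) _⟩

variable (hPl : ∀ x y : M, dist x y = D → finrank ℝ (H775.Pl e D x y) = l + 1)
  (hf : Fam F hD hB hdiam l X δ ε)
  {c : ℝ} (S : Sys (dPr e D) (dUT E M) (dM E M) 1 D c)
  (h1 : S.φU = phi F) (h2 : S.φ = Lam hPl hf) (h3 : S.pi = Pr.v)

/-- the bundle of negative directions in polar coordinates -/
def polXi : PolD S (dXi F D X δ ε) where
  Φ := flXi F hD hB hdiam X δ ε
  hΦ := (isFlow_flXi F hD hB hdiam X δ ε).map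
  pv := Xi.v
  hpv := map_Xi_v
  pvΦ := fun x t => by rw [h1]; rfl
  pol := pol hPl hf
  hpol := map_pol hPl hf
  polv := fun q => by rw [h3]; rfl
  polΦ := fun b R t => by rw [h2]; exact pol_Lam hPl hf b R t
  zs := zsXi F D X δ ε
  hzs := map_zsXi
  zsΦ := fun v t => by rw [h1]; rfl
  pol0 := fun b => by
    rw [h3]
    exact Xi.ext rfl (zero_smul ℝ _)
  X1 := {p | 1 ≤ ‖p.a‖}
  pol1 := fun b => by
    change 1 ≤ ‖(pol hPl hf (b, 1)).a‖
    rw [norm_pol hPl hf b zero_le_one]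

/-- the projection field is invariant -/
theorem hPXi (x : Xi F D X δ ε) (t : ℝ) :
    pX F D X δ ε (flXi F hD hB hdiam X δ ε (x, t)).v = pX F D X δ ε x.v :=
  pX_phi F hD hB hdiam X δ ε x.v t

/-- twice the period is a period -/
theorem isFlow_double {Z : Type*} {DZ : Dif Z} {T : ℝ} {Φ : Z × ℝ → Z} (h : IsFlow DZ T Φ) :
    IsFlow DZ (2 * T) Φ where
  map := h.map
  zero := h.zero
  add := h.add
  per x := by rw [two_mul, ← h.add, h.per, h.per]

variable [NeZero l]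

/-- the class `q` -/
def qq (μ : Form (XC.dX (dXi F D X δ ε) fun x => pX F D X δ ε x.v)) : Form (dUT E M) :=
  (polXi hPl hf S h1 h2 h3).fx ((bun ((pj hf).comp map_Xi_v)).SI (ob l) μ)

include h1 in
/-- the contact form on the bundle of negative directions -/
theorem contact_Xi :
    Form.pull (flXi F hD hB hdiam X δ ε) (isFlow_flXi F hD hB hdiam X δ ε).map
      (Form.pull Xi.v map_Xi_v S.α) = pr (Form.pull Xi.v map_Xi_v S.α) + dt := by
  have hk : ((dXi F D X δ ε).prod (Dif.lin ℝ)).Map (dUT E M)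
      (fun q : Xi F D X δ ε × ℝ => S.φU (q.1.v, q.2)) :=
    fun hu => S.hφU.map (map_cyl map_Xi_v hu)
  have hk' : ((dXi F D X δ ε).prod (Dif.lin ℝ)).Map (dUT E M)
      (fun q : Xi F D X δ ε × ℝ => q.1.v) := fun hu => map_Xi_v (Dif.map_fst hu)
  rw [H584.pull_pull (k := fun q : Xi F D X δ ε × ℝ => S.φU (q.1.v, q.2))
    (isFlow_flXi F hD hB hdiam X δ ε).map map_Xi_v hk (fun q => by rw [h1]; rfl) S.α,
    ← H584.pull_pull (k := fun q : Xi F D X δ ε × ℝ => S.φU (q.1.v, q.2))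
    (map_cyl map_Xi_v) S.hφU.map hk (fun q => rfl) S.α, S.hα]
  refine (map_add (Form.pullA _ (map_cyl map_Xi_v)) _ _).trans ?_
  refine congrArg₂ (· + ·) ?_ ?_
  · refine (H584.pull_pull (k := fun q : Xi F D X δ ε × ℝ => q.1.v) (map_cyl map_Xi_v)
      Dif.map_fst hk' (fun q => rfl) S.α).trans ?_
    exact (H584.pull_pull (k := fun q : Xi F D X δ ε × ℝ => q.1.v) Dif.map_fst map_Xi_v hk'
      (fun q => rfl) S.α).symm
  · have h4 := pull_dt_lin (D := dXi F D X δ ε) (D' := dUT E M)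
      (g := fun q : Xi F D X δ ε × ℝ => (q.1.v, q.2)) (map_cyl map_Xi_v) 1
      fun q => (one_mul q.2).symm
    rw [one_smul] at h4
    exact h4

/-- **the pairing lemma for the doubled standard family** -/
theorem theta0 (hP : S.PP) (hα1 : Form.IsDeg 1 S.α) (A C : ℝ)
    {Std : Xi F D X δ ε → M} (hStd : (dXi F D X δ ε).Map (dM E M) Std)
    (hg : ∀ q, S.g q = Std (pol hPl hf q))
    {μ : Form (XC.dX (dXi F D X δ ε) fun x => pX F D X δ ε x.v)}
    (hμ : Basic (dbl (flXi F hD hB hdiam X δ ε) hPXi (2 * D))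
      (map_dbl hPXi (isFlow_flXi F hD hB hdiam X δ ε).map (2 * D)) μ)
    (hμe : μ.sg = μ)
    (hμd : μ.d = Form.pull XS.b map_b (tau A C (flXi F hD hB hdiam X δ ε)
      (isFlow_flXi F hD hB hdiam X δ ε).map (2 * (2 * D)) (Form.pull Xi.v map_Xi_v S.α)
      (Form.pull Std hStd S.F)))
    (hμz : Zer (XS.b ⁻¹' {p : Xi F D X δ ε | 1 ≤ ‖p.a‖}) μ) :
    (qq hPl hf S h1 h2 h3 μ).d = 0 ∧ Basic S.φU S.hφU.map (qq hPl hf S h1 h2 h3 μ) ∧
    ∃ m : Form (dUT E M), Basic S.φU S.hφU.map m ∧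
      S.P (Form.K (tau A C (cflow S.φ) (map_cflow S.hφ.map) (2 * (2 * D)) (pr S.αB) S.Gc)) =
        -(qq hPl hf S h1 h2 h3 μ * eE (pj hf) ((2 * (2 * D))⁻¹ • S.α)) + m.d := by
  have hc := contact_Xi (F := F) (hD := hD) (hB := hB) (hdiam := hdiam) (X := X) (δ := δ)
    (ε := ε) S h1
  have hαo : (Form.pull Xi.v (map_Xi_v (F := F) (D := D) (X := X) (δ := δ) (ε := ε)) S.α).sg =
      -Form.pull Xi.v map_Xi_v S.α := by
    rw [← Form.pull_sg, S.hαo]
    exact map_neg (Form.pullA Xi.v map_Xi_v) S.α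
  obtain ⟨hG1, hG2, hG3⟩ := pull_good S.hF S.hFe S.hFn hStd
  have hτo := tau_sg (isFlow_double (isFlow_flXi F hD hB hdiam X δ ε)) A C hc hαo hG2
  have hθo : ((2 * (2 * D))⁻¹ • S.α).sg = -((2 * (2 * D))⁻¹ • S.α) := by
    rw [Form.sg_smul, S.hαo, smul_neg]
  have hθ : Form.pull S.φU S.hφU.map ((2 * (2 * D))⁻¹ • S.α) =
      pr ((2 * (2 * D))⁻¹ • S.α) + (2 * (2 * D))⁻¹ • dt := by
    rw [pull_smul, S.hα, smul_add]
    refine congrArg (· + (2 * (2 * D))⁻¹ • dt) ?_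
    exact (map_smul (Form.pullA Prod.fst Dif.map_fst) _ _).symm
  have hPφ : ∀ v t, pX F D X δ ε (S.φU (v, t)) = pX F D X δ ε v := fun v t => by
    rw [h1]; exact pX_phi F hD hB hdiam X δ ε v t
  obtain ⟨k1, k2, m, hm, k3⟩ := (polXi hPl hf S h1 h2 h3).pairing hP (pj hf) hPφ (2 * D) hθo
    (hα1.smul _) hθ hτo hμ hμe hμd hμz
  refine ⟨k1, k2, m, hm, Eq.trans ?_ k3⟩
  change _ = S.P (Form.K (Form.pull (pol hPl hf) (map_pol hPl hf) _))
  have hk : ((dPr e D).prod (Dif.lin ℝ)).Map (dUT E M) (fun q : Pr e D × ℝ => S.pi q.1) :=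
    fun hu => S.hpi (Dif.map_fst hu)
  have e1 : Form.pull (pol hPl hf) (map_pol hPl hf) (Form.pull Xi.v map_Xi_v S.α) =
      pr S.αB := by
    rw [H584.pull_pull (k := fun q : Pr e D × ℝ => S.pi q.1) (map_pol hPl hf) map_Xi_v hk
      (fun q => by rw [h3]; rfl) S.α]
    exact (H584.pull_pull (k := fun q : Pr e D × ℝ => S.pi q.1) Dif.map_fst S.hpi hk
      (fun q => rfl) S.α).symm
  have e2 : Form.pull (pol hPl hf) (map_pol hPl hf) (Form.pull Std hStd S.F) = S.Gc :=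
    H584.pull_pull (k := S.g) (map_pol hPl hf) hStd S.hg (fun q => (hg q).symm) S.F
  rw [pull_tau (map_cflow S.hφ.map) (isFlow_flXi F hD hB hdiam X δ ε).map (map_pol hPl hf)
    (fun q t => by
      change pol hPl hf (S.φ (q.1, t), q.2) = _
      rw [h2]
      exact pol_Lam hPl hf q.1 q.2 t), e1, e2]

end

end Vale.Agent.P231.XC
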