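import Vale.Agent.P231.XC.PsiB
import Vale.Agent.P231.H584.Lev2

/-!
# P231, stage 3: the pairing lemma

`X → U` is a vector bundle in polar coordinates `pol : B × ℝ → X` over the sphere bundle
`B → U`, and `fx w = P (K (pol^* w))` is the fibre integral of a form `w` on `X` which vanishes
outside the unit ball. If `μ` is a form on the sphere bundle `S(L ⊗ ξ ⊗ ℂ)` over `X`, vanishing
outside the unit ball, with `dμ = τ`, then `fx τ = - q e_θ + d (basic)`, `q = fx (∫ μ)`.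
-/

set_option linter.unusedSectionVars false
set_option linter.unusedVariables false

open MeasureTheory Matrix Set Filter Topology Module
open scoped ContDiff

namespace Vale.Agent.P231.XC

open Fm W H584 ChW X3 SEG

noncomputable section

/-! ### forms which vanish at plots with values in a set -/

section Zer

variable {X Y : Type*} {D : Dif X} {D' : Dif Y}

/-- the form vanishes at the plots with values in `Z` -/
structure Zer (Z : Set X) (w : Form D) : Prop where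
  out : ∀ {E : Type} [NormedAddCommGroup E] [NormedSpace ℝ E] [FiniteDimensional ℝ E]
    {u : E → X} {x : E}, D.At u x → (∀ᶠ y in 𝓝 x, u y ∈ Z) → w.val u x = 0

variable {Z : Set X} {v w : Form D}

theorem Zer.mul_left (hw : Zer Z w) (v : Form D) : Zer Z (v * w) :=
  ⟨fun {E} _ _ _ {u x} hu hx => by rw [Form.mul_val, hw.out hu hx, mul_zero]⟩

theorem Zer.mul_right (hw : Zer Z w) (v : Form D) : Zer Z (w * v) :=
  ⟨fun {E} _ _ _ {u x} hu hx => by rw [Form.mul_val, hw.out hu hx, zero_mul]⟩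

theorem Zer.add (hv : Zer Z v) (hw : Zer Z w) : Zer Z (v + w) :=
  ⟨fun {E} _ _ _ {u x} hu hx => by rw [Form.add_val, hv.out hu hx, hw.out hu hx, add_zero]⟩

theorem Zer.smul (c : ℝ) (hw : Zer Z w) : Zer Z (c • w) :=
  ⟨fun {E} _ _ _ {u x} hu hx => by rw [Form.smul_val, hw.out hu hx, smul_zero]⟩

theorem Zer.pull {Z' : Set Y} {w : Form D'} (hw : Zer Z' w) {f : X → Y} (hf : D.Map D' f)
    (h : ∀ x ∈ Z, f x ∈ Z') : Zer Z (Form.pull f hf w) :=
  ⟨fun {E} _ _ _ {u x} hu hx => by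
    rw [Form.pull_val _ _ hu]
    exact hw.out (hf hu) (hx.mono fun y hy => h _ hy)⟩

/-- a form which vanishes on `Z` pulls back to zero by a map with values in `Z` -/
theorem Zer.pull_eq_zero {Z' : Set Y} {w : Form D'} (hw : Zer Z' w) {f : X → Y}
    (hf : D.Map D' f) (h : ∀ x, f x ∈ Z') : Form.pull f hf w = 0 :=
  Form.ext_val fun E _ _ _ u x hu => by
    rw [Form.pull_val _ _ hu, Form.zero_val]
    exact hw.out (hf hu) (Eventually.of_forall fun y => h _)

end Zer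

section ZerSI

variable {B S Fr : Type*} {DB : Dif B} {DS : Dif S} {DF : Dif Fr}
variable {F : Type} [NormedAddCommGroup F] [InnerProductSpace ℝ F] [FiniteDimensional ℝ F]
  [MeasurableSpace F] [BorelSpace F] {m : ℕ} (o : OrthonormalBasis (Fin m) ℝ F)
variable {π : S → B} {q : Fr → B} {ev : Fr × F → S}

/-- fibre integration is local over the base -/
theorem Zer.SI (h : Co.Bun DB DS DF F π q ev) {Z : Set B} {w : Form DS}
    (hw : Zer (π ⁻¹' Z) w) : Zer Z (h.SI o w) := by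
  refine ⟨fun {E} _ _ _ {u x} hu hx => ?_⟩
  obtain ⟨f, hf, hqf⟩ := h.hq.lift hu
  have h1 : (h.SI o w).val u x = (h.SI o w).val (q ∘ f) x :=
    ((h.SI o w).congr (h.hq.map hf) hqf).symm
  have h2 : (h.SI o w).val (q ∘ f) x = (Form.pull q h.hq.map (h.SI o w)).val f x :=
    (Form.pull_val _ _ hf).symm
  rw [h1, h2, h.pull_SI o, Co.si, Form.fi_val (Co.vc_of_van (Co.vc_dx _)) hf]
  refine integral_eq_zero_of_ae (Eventually.of_forall fun ξ => ?_)
  change slice _ _ = 0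
  have h3 : (Co.dx (Form.pull ev h.hev w)).val (cylF f) (x, ξ) = 0 := by
    rw [Co.dx, Form.mx_val]
    rcases (Co.supp_chf (D := DF) (F := F)).d.out (cylF_at hf ξ) with h3 | h3
    · have h4 : (Co.PB DF F).At (cylF f) (x, ξ) := ⟨cylF_at hf ξ, h3⟩
      rw [Form.pull_val _ _ h4, Form.pull_val _ _ (Co.map_nrm h4)]
      have h5 : DS.At (ev ∘ Co.nrm ∘ cylF f) (x, ξ) := h.hev (Co.map_nrm h4)
      have h6 : ∀ᶠ y in 𝓝 (x, ξ), q (f y.1) ∈ Z := by
        have h7 : ∀ᶠ y in 𝓝 x, q (f y) ∈ Z := by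
          filter_upwards [hqf, hx] with y hy hy'
          have hy2 : q (f y) = u y := hy
          rw [hy2]
          exact hy'
        exact (continuous_fst.tendsto (x, ξ)).eventually h7
      have h8 : ∀ᶠ y in 𝓝 (x, ξ), π ((ev ∘ Co.nrm ∘ cylF f) y) = q (f y.1) :=
        h.comm' (Co.map_nrm h4)
      rw [hw.out h5 (by
        filter_upwards [h6, h8] with y hy hy'
        change π ((ev ∘ Co.nrm ∘ cylF f) y) ∈ Z
        rw [hy']
        exact hy), mul_zero]
    · rw [h3.self_of_nhds, zero_mul]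
  rw [h3, map_zero]

end ZerSI

/-! ### naturality of the Chern forms of the base -/

section Nat

variable {B B' : Type*} {DB : Dif B} {DB' : Dif B'} {ι : Type} [Fintype ι] [DecidableEq ι]
  {P : B → Matrix ι ι ℝ} {l : ℕ}

/-- the pull-back of a field of projections -/
theorem Pj.comp (h : Pj DB P l) {f : B' → B} (hf : DB'.Map DB f) :
    Pj DB' (fun b => P (f b)) l where
  sm := fun i j => (h.sm i j).comp hf
  idem b := h.idem _
  symm b := h.symm _
  tr b := h.tr _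

theorem cF_comp (h : Pj DB P l) {f : B' → B} (hf : DB'.Map DB f) (k : ℕ) :
    cF (h.comp hf) k = Form.pull f hf (cF h k) := by
  have h1 := (newtE_spec (K := ℝ) (fun k => sF k (cM (fun b => cplx (P b)) (sm_cP h)))).map
    (Form.pullA f hf)
  refine (newtE_spec (K := ℝ) (fun k => sF k (cM (fun b => cplx (P (f b)))
    (sm_cP (h.comp hf))))).unique (h1.congr fun i => ?_) k
  change Form.pull f hf (sF (i + 1) (cM (fun b => cplx (P b)) (sm_cP h))) = _
  rw [← S2T.IB.sF_pull]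
  congr 1
  exact map_pullC_cM _ hf

theorem eE_comp (h : Pj DB P l) {f : B' → B} (hf : DB'.Map DB f) (θ : Form DB) :
    eE (h.comp hf) (Form.pull f hf θ) = Form.pull f hf (eE h θ) := by
  have h1 := map_sum (Form.pullA f hf) (fun i => θ.d ^ i * cF h (l - i)) (Finset.range (l + 1))
  refine Eq.trans ?_ h1.symm
  refine Finset.sum_congr rfl fun i _ => ?_
  rw [map_mul, map_pow, cF_comp h hf]
  change (Form.pull f hf θ).d ^ i * _ = Form.pull f hf θ.d ^ i * _
  rw [Form.pull_d]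
  rfl

end Nat

/-! ### polar coordinates -/

/-- a vector bundle in polar coordinates -/
structure PolD {B U M X : Type*} {dB : Dif B} {dU : Dif U} {dM : Dif M} {D c : ℝ}
    (S : Sys dB dU dM 1 D c) (dX : Dif X) where
  Φ : X × ℝ → X
  hΦ : (dX.prod (Dif.lin ℝ)).Map dX Φ
  pv : X → U
  hpv : dX.Map dU pv
  pvΦ : ∀ x t, pv (Φ (x, t)) = S.φU (pv x, t)
  pol : B × ℝ → X
  hpol : (dB.prod (Dif.lin ℝ)).Map dX pol
  polv : ∀ q, pv (pol q) = S.pi q.1
  polΦ : ∀ b R t, pol (S.φ (b, t), R) = Φ (pol (b, R), t)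
  zs : U → X
  hzs : dU.Map dX zs
  zsΦ : ∀ v t, zs (S.φU (v, t)) = Φ (zs v, t)
  pol0 : ∀ b, pol (b, 0) = zs (S.pi b)
  X1 : Set X
  pol1 : ∀ b, pol (b, 1) ∈ X1

namespace PolD

variable {B U M X : Type*} {dB : Dif B} {dU : Dif U} {dM : Dif M} {D c : ℝ}
  {S : Sys dB dU dM 1 D c} {dX : Dif X} (L : PolD S dX)

/-- the fibre integral -/
def fx (w : Form dX) : Form dU := S.P (Form.K (Form.pull L.pol L.hpol w))

theorem fx_add (v w : Form dX) : L.fx (v + w) = L.fx v + L.fx w := by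
  have h1 : Form.pull L.pol L.hpol (v + w) = Form.pull L.pol L.hpol v +
    Form.pull L.pol L.hpol w := map_add (Form.pullA L.pol L.hpol) v w
  rw [fx, h1, Form.K_add, map_add]
  rfl

theorem fx_smul (a : ℝ) (w : Form dX) : L.fx (a • w) = a • L.fx w := by
  have h1 : Form.pull L.pol L.hpol (a • w) = a • Form.pull L.pol L.hpol w :=
    map_smul (Form.pullA L.pol L.hpol) a w
  rw [fx, h1, Form.K_smul, map_smul]
  rfl

theorem fx_neg (w : Form dX) : L.fx (-w) = -L.fx w := by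
  rw [← neg_one_smul ℝ w, fx_smul, neg_one_smul]

theorem fx_sub (v w : Form dX) : L.fx (v - w) = L.fx v - L.fx w := by
  rw [sub_eq_add_neg, fx_add, fx_neg, ← sub_eq_add_neg]

theorem fx_mul (w : Form dX) (a : Form dU) :
    L.fx (w * Form.pull L.pv L.hpv a) = L.fx w * a := by
  have hk : (dB.prod (Dif.lin ℝ)).Map dU (fun q : B × ℝ => S.pi q.1) :=
    fun hu => S.hpi (Dif.map_fst hu)
  have h1 : Form.pull L.pol L.hpol (w * Form.pull L.pv L.hpv a) =
      Form.pull L.pol L.hpol w * pr (Form.pull S.pi S.hpi a) := by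
    refine (map_mul (Form.pullA L.pol L.hpol) _ _).trans ?_
    refine congrArg (Form.pull L.pol L.hpol w * ·) ?_
    refine (pull_pull (k := fun q : B × ℝ => S.pi q.1) L.hpol L.hpv hk
      (fun q => L.polv q) a).trans ?_
    exact (pull_pull (k := fun q : B × ℝ => S.pi q.1) Dif.map_fst S.hpi hk
      (fun q => rfl) a).symm
  rw [fx, h1, K_mul_pr, S.hPm]
  rfl

theorem basic_pol {w : Form dX} (hw : Basic L.Φ L.hΦ w) :
    Basic (cflow S.φ) (map_cflow S.hφ.map) (Form.pull L.pol L.hpol w) :=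
  Basic.pull (map_cflow S.hφ.map) L.hΦ L.hpol (fun q t => L.polΦ q.1 q.2 t) hw

theorem basic_fx (hP : S.PP) {w : Form dX} (hw : Basic L.Φ L.hΦ w) :
    Basic S.φU S.hφU.map (L.fx w) := hP.bas _ (basic_K (L.basic_pol hw))

theorem fx_d (hP : S.PP) {w : Form dX} (hw : Basic L.Φ L.hΦ w) (hz : Zer L.X1 w) :
    L.fx w.d = -(L.fx w).d := by
  have h1 := homotopy' (Form.pull L.pol L.hpol w)
  have hk : dB.Map dX (fun b => L.pol (b, 1)) := fun hu => L.hpol (Form.map_slice 1 hu)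
  have h2 : at_ 1 (Form.pull L.pol L.hpol w) = 0 := by
    refine (pull_pull (k := fun b => L.pol (b, 1)) (Form.map_slice 1) L.hpol hk
      (fun b => rfl) w).trans ?_
    exact hz.pull_eq_zero hk L.pol1
  have hk0 : dB.Map dX (fun b => L.pol (b, 0)) := fun hu => L.hpol (Form.map_slice 0 hu)
  have h3 : at_ 0 (Form.pull L.pol L.hpol w) =
      Form.pull S.pi S.hpi (Form.pull L.zs L.hzs w) := by
    refine (pull_pull (k := fun b => L.pol (b, 0)) (Form.map_slice 0) L.hpol hk0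
      (fun b => rfl) w).trans ?_
    exact (pull_pull (k := fun b => L.pol (b, 0)) S.hpi L.hzs hk0 (fun b => (L.pol0 b).symm) w).symm
  have h4 : Basic S.φU S.hφU.map (Form.pull L.zs L.hzs w) :=
    Basic.pull S.hφU.map L.hΦ L.hzs (fun v t => L.zsΦ v t) hw
  have h5 := Sys.P_pi hP h4
  have h6 := congrArg S.P h1
  rw [h2, h3, zero_sub, map_neg, h5, neg_zero, map_add, S.hPd, ← Form.pull_d] at h6
  rw [fx, fx]
  exact eq_neg_of_add_eq_zero_left h6.symm

theorem fx_zer {w : Form dX} (hw : w = 0) : L.fx w = 0 := by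
  rw [hw, ← zero_smul ℝ (0 : Form dX), fx_smul, zero_smul]

theorem isDeg_fx (hP : S.PP) {w : Form dX} {k : ℕ} (hw : Form.IsDeg (k + 7) w) :
    Form.IsDeg k (L.fx w) := hP.deg k _ (Form.IsDeg.K (hw.pull L.pol L.hpol))

/-! ### the pairing lemma -/

variable {ι : Type} [Fintype ι] [DecidableEq ι] {P : U → Matrix ι ι ℝ} {l : ℕ} [NeZero l]

/-- the total space of the pulled back sphere bundle -/
abbrev Y (P : U → Matrix ι ι ℝ) : Type _ := XS fun x => P (L.pv x)

theorem hPX (hPφ : ∀ v t, P (S.φU (v, t)) = P v) (x : X) (t : ℝ) :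
    P (L.pv (L.Φ (x, t))) = P (L.pv x) := by rw [L.pvΦ, hPφ]

/-- **the pairing lemma** -/
theorem pairing (hP : S.PP) (h : Pj dU P l) (hPφ : ∀ v t, P (S.φU (v, t)) = P v)
    (T : ℝ) {θ : Form dU} (hθo : θ.sg = -θ) (hθ1 : Form.IsDeg 1 θ)
    (hθ : Form.pull S.φU S.hφU.map θ = pr θ + (2 * T)⁻¹ • dt)
    {τ : Form dX} (hτo : τ.sg = -τ) {μ : Form (XC.dX dX fun x => P (L.pv x))}
    (hμ : Basic (dbl L.Φ (L.hPX hPφ) T) (map_dbl (L.hPX hPφ) L.hΦ T) μ) (hμe : μ.sg = μ)
    (hμd : μ.d = Form.pull XS.b map_b τ) (hμz : Zer (XS.b ⁻¹' L.X1) μ) :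
    (L.fx ((bun (h.comp L.hpv)).SI (ob l) μ)).d = 0 ∧
    Basic S.φU S.hφU.map (L.fx ((bun (h.comp L.hpv)).SI (ob l) μ)) ∧
    ∃ m : Form dU, Basic S.φU S.hφU.map m ∧
      L.fx τ = -(L.fx ((bun (h.comp L.hpv)).SI (ob l) μ) * eE h θ) + m.d := by
  set hX := h.comp L.hpv with hhX
  have hθX : Form.pull L.Φ L.hΦ (Form.pull L.pv L.hpv θ) =
      pr (Form.pull L.pv L.hpv θ) + (2 * T)⁻¹ • dt := by
    have hk : (dX.prod (Dif.lin ℝ)).Map dU (fun q : X × ℝ => S.φU (L.pv q.1, q.2)) :=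
      fun hu => S.hφU.map (map_cyl L.hpv hu)
    have hk' : (dX.prod (Dif.lin ℝ)).Map dU (fun q : X × ℝ => L.pv q.1) :=
      fun hu => L.hpv (Dif.map_fst hu)
    rw [pull_pull (k := fun q : X × ℝ => S.φU (L.pv q.1, q.2)) L.hΦ L.hpv hk
      (fun q => L.pvΦ q.1 q.2) θ, ← pull_pull (k := fun q : X × ℝ => S.φU (L.pv q.1, q.2))
      (map_cyl L.hpv) S.hφU.map hk (fun q => rfl) θ, hθ]
    refine (map_add (Form.pullA _ (map_cyl L.hpv)) _ _).trans ?_
    refine congrArg₂ (· + ·) ?_ ?_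
    · refine (pull_pull (k := fun q : X × ℝ => L.pv q.1) (map_cyl L.hpv) Dif.map_fst hk'
        (fun q => rfl) θ).trans ?_
      exact (pull_pull (k := fun q : X × ℝ => L.pv q.1) Dif.map_fst L.hpv hk'
        (fun q => rfl) θ).symm
    · refine (map_smul (Form.pullA _ (map_cyl L.hpv)) _ _).trans ?_
      have h4 := pull_dt_lin (D := dX) (D' := dU) (g := fun q : X × ℝ => (L.pv q.1, q.2))
        (map_cyl L.hpv) 1 fun q => (one_mul q.2).symm
      rw [one_smul] at h4
      exact congrArg ((2 * T)⁻¹ • ·) h4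
  have hθXo : (Form.pull L.pv L.hpv θ).sg = -Form.pull L.pv L.hpv θ := by
    rw [← Form.pull_sg, hθo]
    exact map_neg (Form.pullA L.pv L.hpv) θ
  obtain ⟨ψ, hψb, hψd, hψ1, hψdeg⟩ := exists_psi_dbl hX (L.hPX hPφ) L.hΦ T hθXo
    (hθ1.pull L.pv L.hpv) hθX
  rw [eE_comp] at hψd
  have hodd : (-1 : ℝ) ^ (2 * l + 1) = -1 := by rw [pow_succ, pow_mul]; norm_num
  have hSId : ∀ w : Form (XC.dX dX fun x => P (L.pv x)),
      (bun hX).SI (ob l) w.d = -((bun hX).SI (ob l) w).d := fun w => by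
    rw [(bun hX).SI_d (ob l), hodd, neg_one_smul]
  have hsg : ∀ w : Form dX, Form.sg^[2 * l + 1] w = w.sg := fun w => by
    rw [Function.iterate_succ_apply']
    congr 1
    exact Form.sg_iter_even w ⟨l, by omega⟩
  -- the first fibre integral is closed and basic
  have hm1b : Basic L.Φ L.hΦ ((bun hX).SI (ob l) μ) := SI_dbl hX (L.hPX hPφ) L.hΦ T hμ
  have hone : (bun hX).SI (ob l) (1 : Form (XC.dX dX fun x => P (L.pv x))) = 0 :=
    SI_rot hX Basic.one
  have hm1d : ((bun hX).SI (ob l) μ).d = 0 := by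
    have h1 := hSId μ
    rw [hμd] at h1
    have h2 := (bun hX).SI_π_mul (ob l) τ (1 : Form (XC.dX dX fun x => P (L.pv x)))
    rw [mul_one, hone, mul_zero] at h2
    have h3 : (bun hX).SI (ob l) (Form.pull XS.b map_b τ) = 0 := h2
    rw [h3] at h1
    exact neg_eq_zero.1 h1.symm
  have hm1z : Zer L.X1 ((bun hX).SI (ob l) μ) := Zer.SI (ob l) (bun hX) hμz
  refine ⟨?_, L.basic_fx hP hm1b, ?_⟩
  · have h1 := L.fx_d hP hm1b hm1z
    rw [hm1d, L.fx_zer rfl] at h1
    exact neg_eq_zero.1 h1.symm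
  · have hn : Basic L.Φ L.hΦ ((bun hX).SI (ob l) (μ * ψ)) :=
      SI_dbl hX (L.hPX hPφ) L.hΦ T (Basic.mul hμ hψb)
    have hnz : Zer L.X1 ((bun hX).SI (ob l) (μ * ψ)) := Zer.SI (ob l) (bun hX) (hμz.mul_right ψ)
    have h1 := hSId (μ * ψ)
    have h2 : (μ * ψ).d = Form.pull XS.b map_b τ * ψ +
        μ * Form.pull XS.b map_b (Form.pull L.pv L.hpv (eE h θ)) := by
      rw [Form.d_mul, hμd, hμe, hψd]
    have h3 : (bun hX).SI (ob l) (Form.pull XS.b map_b τ * ψ) = τ := by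
      refine ((bun hX).SI_π_mul (ob l) τ ψ).trans ?_
      rw [hsg, hτo, hψ1, neg_mul_neg, mul_one]
    have h4 : (bun hX).SI (ob l) (μ * Form.pull XS.b map_b (Form.pull L.pv L.hpv (eE h θ))) =
        (bun hX).SI (ob l) μ * Form.pull L.pv L.hpv (eE h θ) :=
      (bun hX).SI_mul_π (ob l) μ _
    rw [h2, (bun hX).SI_add (ob l), h3, h4] at h1
    have h5 : τ = -((bun hX).SI (ob l) μ * Form.pull L.pv L.hpv (eE h θ)) -
        ((bun hX).SI (ob l) (μ * ψ)).d := by
      rw [← sub_eq_zero]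
      have h6 := sub_eq_zero.2 h1
      rw [← h6]
      abel
    refine ⟨L.fx ((bun hX).SI (ob l) (μ * ψ)), L.basic_fx hP hn, ?_⟩
    conv_lhs => rw [h5]
    rw [L.fx_sub, L.fx_neg, L.fx_mul, L.fx_d hP hn hnz, sub_neg_eq_add]

end PolD

end

end Vale.Agent.P231.XC
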