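import Vale.Agent.P231.XC.Psi
import Vale.Agent.P231.SEG.Push

/-!
# P231, stage 3: the sphere bundle of `ξ ⊗ ℂ` as an instance of block SEG
-/

set_option linter.unusedSectionVars false
set_option linter.unusedVariables false

open MeasureTheory Matrix Set Filter Topology Module
open scoped ContDiff

namespace Vale.Agent.P231.XC

open Fm W H584 ChW X3 SEG

noncomputable section

variable {B : Type*} {DB : Dif B} {ι : Type} [Fintype ι] [DecidableEq ι]
  {P : B → Matrix ι ι ℝ} {l : ℕ} {φ : B × ℝ → B}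

/-! ### the relation, for any instance -/

section Gen

variable {B' S Fr' : Type*} {DB' : Dif B'} {DS : Dif S} {DF : Dif Fr'}
variable {F : Type} [NormedAddCommGroup F] [InnerProductSpace ℝ F] [FiniteDimensional ℝ F]
  [MeasurableSpace F] [BorelSpace F]
variable {π : S → B'} {q : Fr' → B'} {ev' : Fr' × F → S} {s : Seg DB' DS DF F π q ev'}

theorem gr_of {θ : Form DB'} {η : Form DS} (h : s.Con θ η) (P1 P2 P3 : s.BB) {ρ : Form DS}
    (hB : s.fam.B ρ) (hd : η.d ^ 7 - (s.pi P1.1 * η.d ^ 5 - s.pi P2.1 * η.d ^ 3 +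
      s.pi P3.1 * η.d) = ρ.d) : Seg.Gr h P1 P2 P3 := by
  unfold Seg.Gr
  have h1 : s.fam.qm (s.piB P1) * s.fam.qm h.hB ^ 5 = s.fam.qm (s.piB P1 * h.hB ^ 5) := by
    rw [map_mul, map_pow]
  have h2 : s.fam.qm (s.piB P2) * s.fam.qm h.hB ^ 3 = s.fam.qm (s.piB P2 * h.hB ^ 3) := by
    rw [map_mul, map_pow]
  have h3 : s.fam.qm (s.piB P3) * s.fam.qm h.hB = s.fam.qm (s.piB P3 * h.hB) := by
    rw [map_mul]
  have h4 : s.fam.qm h.hB ^ 7 = s.fam.qm (h.hB ^ 7) := by rw [map_pow]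
  rw [h1, h2, h3, h4]
  have h5 : s.fam.qm (s.piB P1 * h.hB ^ 5) - s.fam.qm (s.piB P2 * h.hB ^ 3) +
      s.fam.qm (s.piB P3 * h.hB) =
      s.fam.qm (s.piB P1 * h.hB ^ 5 - s.piB P2 * h.hB ^ 3 + s.piB P3 * h.hB) := by
    rw [map_add, map_sub]
  rw [h5]
  exact s.fam.qm_eq_of hB hd

end Gen

/-! ### the odd Chern forms vanish -/

theorem newtE_odd {X : Type*} {D : Dif X} {s : ℕ → Form D} (hs : ∀ k, Odd k → s k = 0) (k : ℕ)
    (hk : Odd k) : newtE ℝ s k = 0 := by
  induction k using Nat.strong_induction_on with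
  | _ k ih =>
    cases k with
    | zero => exact absurd hk (by decide)
    | succ k =>
      rw [newtE, Finset.sum_eq_zero, smul_zero]
      intro i _
      have hi : (i : ℕ) ≤ k := Nat.lt_succ_iff.1 i.2
      rcases Nat.even_or_odd (i : ℕ) with h1 | h1
      · rw [hs _ h1.add_one, zero_mul, smul_zero]
      · have h2 : Odd (k - i) := by
          have h3 : Even k := by
            rcases Nat.even_or_odd k with h | h
            · exact h
            · exact absurd hk (Nat.not_odd_iff_even.2 h.add_one)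
          exact Nat.Even.sub_odd hi h3 h1
        rw [ih _ (by omega) h2, mul_zero, smul_zero]

theorem cF_odd (h : Pj DB P l) {k : ℕ} (hk : Odd k) : cF h k = 0 := by
  refine newtE_odd (fun k hk => ?_) k hk
  have h1 : cM (fun b => cplx (P b)) (sm_cP h) = (rM P h.sm).map Cx.of := (rM_map_of h.sm).symm
  rw [h1]
  exact sF_real_odd _ hk

/-! ### the instance -/

section Inst

variable [NeZero l] (h : Pj DB P l) (hP : ∀ b t, P (φ (b, t)) = P b)
  (hφ : (DB.prod (Dif.lin ℝ)).Map DB φ)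

/-- the sphere bundle with its two flows -/
def seg : Seg DB (dX DB P) (dFr DB P l) (Fl l) XS.b Fr.b ev where
  bun := bun h
  φ := φ
  hφ := hφ
  Φ := lft φ hP
  hΦ := map_lft hP hφ
  R := rot
  hR := map_rot
  φF := frf φ hP
  hφF := map_frf hP hφ
  ρ := ρf l
  X := (2 * Real.pi) • Jf l
  vr := vr_ρf l
  hqφ := fun _ _ => rfl
  hΦe := lft_ev hP
  hRe := rot_ev
  hπΦ := fun _ _ => rfl
  hπR := fun _ _ => rfl

/-- the contact data -/
theorem con {θ : Form DB} (hθ : Form.pull φ hφ θ = pr θ + dt) (hθo : θ.sg = -θ) :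
    (seg h hP hφ).Con θ (et DB P) where
  hθ := hθ
  hθo := hθo
  hηΦ := basic_et hP hφ
  hηR := et_rot
  hηo := et_sg

/-- the Chern forms of the base -/
def cBB (k : ℕ) : (seg h hP hφ).BB :=
  ⟨cF h k, ⟨cF_even h hP hφ k, cF_closed h hP hφ k, cF_basic h hP hφ k⟩⟩

end Inst

section Seven

instance : NeZero 7 := ⟨by norm_num⟩

variable (h : Pj DB P 7) (hP : ∀ b t, P (φ (b, t)) = P b) (hφ : (DB.prod (Dif.lin ℝ)).Map DB φ)

/-- the normalisation -/
theorem nrm : (seg h hP hφ).Nrm (ob 7) (et DB P) where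
  top := SI_top h
  low := fun j hj => SI_low h (by omega)

/-- the first Pontryagin form -/
def PP1 : (seg h hP hφ).BB := -cBB h hP hφ 2
/-- the second Pontryagin form -/
def PP2 : (seg h hP hφ).BB := cBB h hP hφ 4
/-- the third Pontryagin form -/
def PP3 : (seg h hP hφ).BB := -cBB h hP hφ 6

theorem coe_PP1 : (PP1 h hP hφ : Form DB) = -cF h 2 := rfl
theorem coe_PP2 : (PP2 h hP hφ : Form DB) = cF h 4 := rfl
theorem coe_PP3 : (PP3 h hP hφ : Form DB) = -cF h 6 := rfl

/-- the relation of Grothendieck, as forms -/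
theorem gr_form : ∃ ρ : Form (dX DB P), (fam φ hP hφ).B ρ ∧
    (et DB P).d ^ 7 - (Form.pull XS.b map_b (-cF h 2) * (et DB P).d ^ 5 -
      Form.pull XS.b map_b (cF h 4) * (et DB P).d ^ 3 +
      Form.pull XS.b map_b (-cF h 6) * (et DB P).d) = ρ.d := by
  obtain ⟨ρ, hρ, hρd⟩ := groth_form h (by norm_num) hP hφ
  refine ⟨ρ, hρ, ?_⟩
  have c1 : cF h 1 = 0 := cF_odd h ⟨0, rfl⟩
  have c3 : cF h 3 = 0 := cF_odd h ⟨1, rfl⟩
  have c5 : cF h 5 = 0 := cF_odd h ⟨2, rfl⟩
  have c7 : cF h 7 = 0 := cF_odd h ⟨3, rfl⟩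
  simp only [Finset.sum_range_succ, Finset.sum_range_zero] at hρd
  norm_num at hρd
  rw [c1, c3, c5, c7, cF_zero] at hρd
  have hz : Form.pull XS.b (map_b (DB := DB) (P := P)) (0 : Form DB) = 0 :=
    map_zero (Form.pullA XS.b map_b)
  have ho : Form.pull XS.b (map_b (DB := DB) (P := P)) (1 : Form DB) = 1 :=
    map_one (Form.pullA XS.b map_b)
  rw [hz, ho] at hρd
  rw [← hρd]
  have hHe : (et DB P).d.sg = (et DB P).d := XC.sg_d_of_odd et_sg
  generalize (et DB P).d = H at hHe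
  have k2 : Form.pull XS.b map_b (cF h 2) * H ^ 5 = H ^ 5 * Form.pull XS.b map_b (cF h 2) :=
    (even_comm (pow_even hHe 5) _).eq.symm
  have k4 : Form.pull XS.b map_b (cF h 4) * H ^ 3 = H ^ 3 * Form.pull XS.b map_b (cF h 4) :=
    (even_comm (pow_even hHe 3) _).eq.symm
  have k6 : Form.pull XS.b map_b (cF h 6) * H = H * Form.pull XS.b map_b (cF h 6) :=
    (even_comm hHe _).eq.symm
  have n2 : Form.pull XS.b (map_b (DB := DB) (P := P)) (-cF h 2) =
      -Form.pull XS.b map_b (cF h 2) := map_neg (Form.pullA XS.b map_b) _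
  have n6 : Form.pull XS.b (map_b (DB := DB) (P := P)) (-cF h 6) =
      -Form.pull XS.b map_b (cF h 6) := map_neg (Form.pullA XS.b map_b) _
  rw [n2, n6, neg_mul, neg_mul, k2, k4, k6]
  simp only [mul_zero, mul_one, zero_add, add_zero]
  abel

/-- **the relation of Grothendieck** -/
theorem gr {θ : Form DB} (hθ : Form.pull φ hφ θ = pr θ + dt) (hθo : θ.sg = -θ) :
    Seg.Gr (con h hP hφ hθ hθo) (PP1 h hP hφ) (PP2 h hP hφ) (PP3 h hP hφ) := by
  obtain ⟨ρ, hρ, hρd⟩ := gr_form h hP hφ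
  exact gr_of (con h hP hφ hθ hθo) _ _ _ ((seg h hP hφ).B_iff.2 ⟨hρ true, hρ false⟩) hρd

end Seven

end

end Vale.Agent.P231.XC
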