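import Vale.Agent.P231.XC.Rot
import Vale.Agent.P231.X3.DegS

/-!
# P231, stage 3: the transgression of the Euler form of `S(L ⊗ ξ ⊗ ℂ)`

`θ` is a form of degree one on the base, `η' = η - θ`, `e_θ = ∑ (dθ) ^ i c_{l-i}` is the top Chern
form of `ξ ⊗ ℂ` twisted by `θ`; `ψ = ρ - η' Q` is a transgression, with fibre integral `-1`.
-/

set_option linter.unusedSectionVars false
set_option linter.unusedVariables false

open MeasureTheory Matrix Set Filter Topology Module
open scoped ContDiff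

namespace Vale.Agent.P231.XC

open Fm W H584 ChW X3 SEG

noncomputable section

variable {B : Type*} {DB : Dif B} {ι : Type} [Fintype ι] [DecidableEq ι]
  {P : B → Matrix ι ι ℝ} {l : ℕ} {φ : B × ℝ → B}

/-! ### degrees -/

section Deg

variable {X : Type*} {D : Dif X}

theorem isDeg_newtE {s : ℕ → Form D} (hs : ∀ k, Form.IsDeg (2 * k) (s k)) (k : ℕ) :
    Form.IsDeg (2 * k) (newtE ℝ s k) := by
  induction k using Nat.strong_induction_on with
  | _ k ih =>
    cases k with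
    | zero => rw [newtE]; exact Form.IsDeg.one
    | succ k =>
      rw [newtE]
      refine Form.IsDeg.smul _ (Form.IsDeg.sum fun i _ => Form.IsDeg.smul _ ?_)
      have h1 := (hs ((i : ℕ) + 1)).mul (ih (k - i) (by omega))
      have hi := i.2
      exact Co.degc h1 (by omega)

end Deg

theorem isDeg_cF (h : Pj DB P l) (k : ℕ) : Form.IsDeg (2 * k) (cF h k) :=
  isDeg_newtE (fun k => isDeg_sC (sm_cP h) k) k

theorem cF_zero (h : Pj DB P l) : cF h 0 = 1 := by rw [cF, newtE]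

theorem cF_even (h : Pj DB P l) (hP : ∀ b t, P (φ (b, t)) = P b)
    (hφ : (DB.prod (Dif.lin ℝ)).Map DB φ) (k : ℕ) : (cF h k).sg = cF h k := by
  rw [← coe_cB h hP hφ]
  exact (cB h hP hφ k).2.1

theorem cF_closed (h : Pj DB P l) (hP : ∀ b t, P (φ (b, t)) = P b)
    (hφ : (DB.prod (Dif.lin ℝ)).Map DB φ) (k : ℕ) : (cF h k).d = 0 := by
  rw [← coe_cB h hP hφ]
  exact (cB h hP hφ k).2.2.1

theorem cF_basic (h : Pj DB P l) (hP : ∀ b t, P (φ (b, t)) = P b)
    (hφ : (DB.prod (Dif.lin ℝ)).Map DB φ) (k : ℕ) : Basic φ hφ (cF h k) := by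
  rw [← coe_cB h hP hφ]
  exact (cB h hP hφ k).2.2.2 true

/-! ### the Euler form -/

/-- the Euler form twisted by `θ` -/
def eE (h : Pj DB P l) (θ : Form DB) : Form DB :=
  ∑ i ∈ Finset.range (l + 1), θ.d ^ i * cF h (l - i)

theorem isDeg_eE (h : Pj DB P l) {θ : Form DB} (hθ : Form.IsDeg 1 θ) :
    Form.IsDeg (2 * l) (eE h θ) := by
  refine Form.IsDeg.sum fun i hi => ?_
  have hi' : i ≤ l := Nat.lt_succ_iff.1 (Finset.mem_range.1 hi)
  exact Co.degc ((isDeg_pow hθ.d i).mul (isDeg_cF h (l - i))) (by omega)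

theorem sg_d_of_odd {X : Type*} {D : Dif X} {w : Form D} (hw : w.sg = -w) : w.d.sg = w.d := by
  have h1 := Form.d_sg w
  rw [hw, Form.d_neg] at h1
  exact (neg_injective h1).symm

section Data

variable (h : Pj DB P l) (hP : ∀ b t, P (φ (b, t)) = P b) (hφ : (DB.prod (Dif.lin ℝ)).Map DB φ)
  {θ : Form DB} (hθo : θ.sg = -θ) (hθe : Basic φ hφ θ.d)

/-- `dθ` as a basic form -/
def eθ : (famB DB φ hφ).Bas := ⟨θ.d, sg_d_of_odd hθo, Form.d_d _, famB_B hθe⟩

/-- the quotient -/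
def QQ : (fam φ hP hφ).Bas :=
  ∑ i ∈ Finset.range (l + 1), (∑ a ∈ Finset.range i, hcl hP hφ ^ a *
    plb hP hφ (eθ hφ hθo hθe) ^ (i - 1 - a)) * plb hP hφ (cB h hP hφ (l - i))

theorem QQ_mul : (hcl hP hφ - plb hP hφ (eθ hφ hθo hθe)) * QQ h hP hφ hθo hθe =
    ∑ i ∈ Finset.range (l + 1), hcl hP hφ ^ i * plb hP hφ (cB h hP hφ (l - i)) -
      ∑ i ∈ Finset.range (l + 1), plb hP hφ (eθ hφ hθo hθe) ^ i *
        plb hP hφ (cB h hP hφ (l - i)) := by
  unfold QQ
  rw [Finset.mul_sum, ← Finset.sum_sub_distrib]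
  refine Finset.sum_congr rfl fun i _ => ?_
  rw [← mul_assoc, mul_comm (hcl hP hφ - plb hP hφ (eθ hφ hθo hθe)), geom_sum₂_mul, sub_mul]

theorem coe_sum_hcl : ((∑ i ∈ Finset.range (l + 1), hcl hP hφ ^ i *
      plb hP hφ (cB h hP hφ (l - i)) : (fam φ hP hφ).Bas) : Form (dX DB P)) =
    ∑ i ∈ Finset.range (l + 1), (et DB P).d ^ i * Form.pull XS.b map_b (cF h (l - i)) := by
  have h4 := map_sum (fam (P := P) φ hP hφ).Bas.val
    (fun i => hcl hP hφ ^ i * plb hP hφ (cB h hP hφ (l - i))) (Finset.range (l + 1))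
  refine h4.trans ?_
  refine Finset.sum_congr rfl fun i _ => ?_
  rw [map_mul, map_pow]
  change (et DB P).d ^ i * Form.pull XS.b map_b (cB h hP hφ (l - i) : Form DB) = _
  rw [coe_cB]

theorem coe_sum_eθ : ((∑ i ∈ Finset.range (l + 1), plb hP hφ (eθ hφ hθo hθe) ^ i *
      plb hP hφ (cB h hP hφ (l - i)) : (fam φ hP hφ).Bas) : Form (dX DB P)) =
    Form.pull XS.b map_b (eE h θ) := by
  have h4 := map_sum (fam (P := P) φ hP hφ).Bas.val
    (fun i => plb hP hφ (eθ hφ hθo hθe) ^ i * plb hP hφ (cB h hP hφ (l - i)))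
    (Finset.range (l + 1))
  refine h4.trans ?_
  have h5 := map_sum (Form.pullA (XS.b (P := P)) (map_b (DB := DB)))
    (fun i => θ.d ^ i * cF h (l - i)) (Finset.range (l + 1))
  refine Eq.trans ?_ h5.symm
  refine Finset.sum_congr rfl fun i _ => ?_
  rw [map_mul, map_pow, map_mul, map_pow]
  change Form.pull XS.b map_b θ.d ^ i * Form.pull XS.b map_b (cB h hP hφ (l - i) : Form DB) = _
  rw [coe_cB]
  rfl

variable [NeZero l]

theorem SI_et_mul (a j : ℕ) (w : Form DB) :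
    (bun h).SI (ob l) (et DB P * ((et DB P).d ^ a * Form.pull XS.b map_b w)) =
      (bun h).SI (ob l) (eh DB P a) * w := by
  rw [← mul_assoc]
  exact (bun h).SI_mul_π (ob l) (eh DB P a) w

theorem SI_et_Q : (bun h).SI (ob l) (et DB P * (QQ h hP hφ hθo hθe : Form (dX DB P))) = 1 := by
  have hl : 1 ≤ l := Nat.one_le_iff_ne_zero.2 (NeZero.ne l)
  have h0 : (QQ h hP hφ hθo hθe : Form (dX DB P)) =
      ∑ i ∈ Finset.range (l + 1), ∑ a ∈ Finset.range i, (et DB P).d ^ a *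
        Form.pull XS.b map_b (θ.d ^ (i - 1 - a) * cF h (l - i)) := by
    refine (map_sum (fam (P := P) φ hP hφ).Bas.val _ _).trans ?_
    refine Finset.sum_congr rfl fun i _ => ?_
    rw [map_mul, map_sum, Finset.sum_mul]
    refine Finset.sum_congr rfl fun a _ => ?_
    rw [map_mul, map_pow, map_pow, mul_assoc]
    change (et DB P).d ^ a * (Form.pull XS.b map_b θ.d ^ (i - 1 - a) *
      Form.pull XS.b map_b (cB h hP hφ (l - i) : Form DB)) = _
    rw [coe_cB]
    congr 1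
    have h5 := map_mul (Form.pullA (XS.b (P := P)) (map_b (DB := DB))) (θ.d ^ (i - 1 - a))
      (cF h (l - i))
    rw [map_pow] at h5
    exact h5.symm
  have h1 : (bun h).SI (ob l) (et DB P * (QQ h hP hφ hθo hθe : Form (dX DB P))) =
      ∑ i ∈ Finset.range (l + 1), ∑ a ∈ Finset.range i,
        (bun h).SI (ob l) (eh DB P a) * (θ.d ^ (i - 1 - a) * cF h (l - i)) := by
    rw [h0, Finset.mul_sum]
    refine (map_sum ((bun h).SIL (ob l)) _ _).trans ?_
    refine Finset.sum_congr rfl fun i _ => ?_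
    rw [Finset.mul_sum, map_sum]
    refine Finset.sum_congr rfl fun a _ => ?_
    exact SI_et_mul h a 0 _
  rw [h1, Finset.sum_eq_single l]
  · rw [Finset.sum_eq_single (l - 1)]
    · rw [SI_top h, Nat.sub_self, Nat.sub_self, cF_zero, pow_zero, one_mul, one_mul]
    · intro a ha hne
      have ha' := Finset.mem_range.1 ha
      rw [SI_low h (by omega), zero_mul]
    · intro hn
      exact absurd (Finset.mem_range.2 (by omega)) hn
  · intro i hi hne
    have hi' := Finset.mem_range.1 hi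
    refine Finset.sum_eq_zero fun a ha => ?_
    have ha' := Finset.mem_range.1 ha
    rw [SI_low h (by omega), zero_mul]
  · intro hn
    exact absurd (Finset.mem_range.2 (by omega)) hn

end Data

/-- **the transgression of the Euler form** -/
theorem exists_psi0 [NeZero l] (h : Pj DB P l) (hP : ∀ b t, P (φ (b, t)) = P b)
    (hφ : (DB.prod (Dif.lin ℝ)).Map DB φ) {θ : Form DB} (hθo : θ.sg = -θ)
    (hθe : Basic φ hφ θ.d) :
    ∃ ρ Q : Form (dX DB P), (fam φ hP hφ).B ρ ∧ (fam φ hP hφ).B Q ∧ Q.sg = Q ∧ Q.d = 0 ∧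
      (ρ - (et DB P - Form.pull XS.b map_b θ) * Q).d = Form.pull XS.b map_b (eE h θ) ∧
      (bun h).SI (ob l) (ρ - (et DB P - Form.pull XS.b map_b θ) * Q) = -1 := by
  have hl : 1 ≤ l := Nat.one_le_iff_ne_zero.2 (NeZero.ne l)
  obtain ⟨ρ, hρ, hρd⟩ := groth_form h hl hP hφ
  set Q := QQ h hP hφ hθo hθe with hQ
  refine ⟨ρ, Q.1, hρ, Q.2.2.2, Q.2.1, Q.2.2.1, ?_, ?_⟩
  · have h1 := congrArg (fun w : (fam φ hP hφ).Bas => (w : Form (dX DB P)))
      (QQ_mul h hP hφ hθo hθe)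
    have h2 : (((hcl hP hφ - plb hP hφ (eθ hφ hθo hθe)) * QQ h hP hφ hθo hθe :
        (fam φ hP hφ).Bas) : Form (dX DB P)) =
        ((et DB P).d - Form.pull XS.b map_b θ.d) * Q.1 := rfl
    have h3 : ((∑ i ∈ Finset.range (l + 1), hcl hP hφ ^ i * plb hP hφ (cB h hP hφ (l - i)) -
      ∑ i ∈ Finset.range (l + 1), plb hP hφ (eθ hφ hθo hθe) ^ i *
        plb hP hφ (cB h hP hφ (l - i)) : (fam φ hP hφ).Bas) : Form (dX DB P)) =
        ρ.d - Form.pull XS.b map_b (eE h θ) := by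
      have h4 := coe_sum_hcl h hP hφ
      have h5 := coe_sum_eθ h hP hφ hθo hθe
      rw [← hρd, ← h4, ← h5]
      rfl
    have h6 : ((et DB P).d - Form.pull XS.b map_b θ.d) * Q.1 =
        ρ.d - Form.pull XS.b map_b (eE h θ) := h2.symm.trans (h1.trans h3)
    rw [Form.d_sub, Form.d_mul, Q.2.2.1, mul_zero, add_zero, Form.d_sub, ← Form.pull_d, h6,
      sub_sub_cancel]
  · have hQr : (bun h).SI (ob l) Q.1 = 0 := SI_rot h (Q.2.2.2 false)
    have hρr : (bun h).SI (ob l) ρ = 0 := SI_rot h (hρ false)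
    have h1 : (ρ - (et DB P - Form.pull XS.b map_b θ) * Q.1) =
        ρ - et DB P * Q.1 + Form.pull XS.b map_b θ * Q.1 := by
      rw [sub_mul]; abel
    rw [h1, (bun h).SI_add (ob l), (bun h).SI_sub (ob l), (bun h).SI_π_mul (ob l), hQr, mul_zero,
      add_zero, hρr, SI_et_Q h hP hφ hθo hθe, zero_sub]

end

end Vale.Agent.P231.XC
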