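import Vale.Agent.P231.SEG.Ver

/-!
# P231, stage 3: fibre integrals and flows of the fibres (the evaluation map is equivariant on unit
vectors only)
-/

set_option linter.unusedSectionVars false
set_option linter.unusedVariables false

open MeasureTheory Set Module Filter Topology
open scoped ContDiff

namespace Vale.Agent.P231.XC

open Vale.Agent.P231.Fm Vale.Agent.P231.W Vale.Agent.P231.H584 Vale.Agent.P231.Co
  Vale.Agent.P231.WG Vale.Agent.P231.SEG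
open Vale.Agent.P231.Fm (Sm Dif Form Lam)

variable {B S Fr : Type*} {DB : Dif B} {DS : Dif S} {DF : Dif Fr}
variable {F : Type} [NormedAddCommGroup F] [InnerProductSpace ℝ F] [FiniteDimensional ℝ F]

section SIB

variable [MeasurableSpace F] [BorelSpace F] {m : ℕ} (o : OrthonormalBasis (Fin m) ℝ F)
variable {π : S → B} {q : Fr → B} {ev : Fr × F → S}
variable {ρ : ℝ → F →L[ℝ] F} {X : F →L[ℝ] F}

/-- the flow `R` in a frame -/
theorem pull_am_ev1 (h : Bun DB DS DF F π q ev) (hρ : Rt (Dif.lin ℝ) ρ) {R : S × ℝ → S}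
    (hR : (DS.prod (Dif.lin ℝ)).Map DS R) (hev : ∀ f ξ t, ‖ξ‖ = 1 → R (ev (f, ξ), t) = ev (f, ρ t ξ))
    (w : Form DS) {E : Type} [NormedAddCommGroup E] [NormedSpace ℝ E] [FiniteDimensional ℝ E]
    {u : E → (Fr × ℝ) × F} {x : E} (hu : (SB (DF.prod (Dif.lin ℝ)) F).At u x) :
    (Form.pull (am Prod.fst fun p : Fr × ℝ => ρ p.2)
      (map_amS (Dif.map_fst (D := DF) (D' := Dif.lin ℝ)) (rt_snd hρ))
      (Form.pull ev h.hev w)).val u x =
      (Form.pull R hR w).val (fun y => (ev ((u y).1.1, (u y).2), (u y).1.2)) x := by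
  have h1 : (SB DF F).At (fun y => ((u y).1.1, (u y).2)) x :=
    ⟨⟨hu.1.1.1, hu.1.2⟩, hu.2⟩
  have h2 : (DS.prod (Dif.lin ℝ)).At (fun y => (ev ((u y).1.1, (u y).2), (u y).1.2)) x :=
    ⟨h.hev h1, hu.1.1.2⟩
  have h3 : (SB DF F).At ((am Prod.fst fun p : Fr × ℝ => ρ p.2) ∘ u) x :=
    map_amS (Dif.map_fst (D := DF) (D' := Dif.lin ℝ)) (rt_snd hρ) hu
  rw [Form.pull_val _ _ hu, Form.pull_val _ _ h3, Form.pull_val _ _ h2]
  refine w.congr (h.hev h3) ?_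
  filter_upwards [hu.2] with y hy
  exact (hev _ _ _ hy).symm

/-- **fibre integrals of forms which are basic for a flow in the fibres vanish** -/
theorem SI_eq_zero_of_basic1 (h : Bun DB DS DF F π q ev) (hρ : VR ρ X) {R : S × ℝ → S}
    (hR : (DS.prod (Dif.lin ℝ)).Map DS R) (hev : ∀ f ξ t, ‖ξ‖ = 1 → R (ev (f, ξ), t) = ev (f, ρ t ξ))
    {w : Form DS} (hw : Basic R hR w) : h.SI o w = 0 := by
  refine pull_inj h.hq ?_
  rw [h.pull_SI o, pull_zero]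
  set σ := Form.pull ev h.hev w with hσ
  have hS : Form.pull (am Prod.fst fun p : Fr × ℝ => ρ p.2)
      (map_amS (Dif.map_fst (D := DF) (D' := Dif.lin ℝ)) (rt_snd hρ.rt)) σ =
      Form.pull (am Prod.fst fun _ : Fr × ℝ => ContinuousLinearMap.id ℝ F)
        (map_amS (Dif.map_fst (D := DF) (D' := Dif.lin ℝ)) rt_id) σ := by
    refine Form.ext_val fun E _ _ _ u x hu => ?_
    have h1 : (SB DF F).At (fun y => ((u y).1.1, (u y).2)) x :=
      ⟨⟨hu.1.1.1, hu.1.2⟩, hu.2⟩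
    have h2 : (DS.prod (Dif.lin ℝ)).At (fun y => (ev ((u y).1.1, (u y).2), (u y).1.2)) x :=
      ⟨h.hev h1, hu.1.1.2⟩
    have h3 : (SB DF F).At
        ((am Prod.fst fun _ : Fr × ℝ => ContinuousLinearMap.id ℝ F) ∘ u) x := h1
    rw [pull_am_ev1 h hρ.rt hR hev w hu, hw, pr, Form.pull_val Dif.map_fst _ h2,
      Form.pull_val _ _ hu, hσ, Form.pull_val _ _ h3]
    rfl
  have hθ : Form.pull (am Prod.fst fun p : Fr × ℝ => ρ p.2)
      (map_am (Dif.map_fst (D := DF) (D' := Dif.lin ℝ)) (rt_snd hρ.rt)) (Co.dx σ) =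
      Form.pull (am Prod.fst fun _ : Fr × ℝ => ContinuousLinearMap.id ℝ F)
        (map_am (Dif.map_fst (D := DF) (D' := Dif.lin ℝ)) rt_id) (Co.dx σ) := by
    rw [am_dx (Dif.map_fst (D := DF) (D' := Dif.lin ℝ)) (rt_snd hρ.rt),
      am_dx (Dif.map_fst (D := DF) (D' := Dif.lin ℝ)) rt_id, hS]
  refine Form.ext_val fun E _ _ _ u x hu => ?_
  rw [si, Form.fi_val (vc_of_van (vc_dx _)) hu, Form.zero_val, fib]
  refine integral_eq_zero_of_ae (Eventually.of_forall fun ξ => ?_)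
  change slice _ _ = 0
  by_cases hξ : ξ = 0
  · have h2 : (Co.dx σ).val (cylF u) (x, ξ) = 0 := by
      rw [Co.dx, Form.mx_val]
      rcases (supp_chf (D := DF) (F := F)).d.out (cylF_at hu ξ) with h3 | h3
      · exact absurd hξ h3.self_of_nhds
      · rw [h3.self_of_nhds, zero_mul]
    rw [h2, map_zero]
  · have h3 := iprod_of_rot hρ hθ hu ξ
    have h4 := slice_eq_zero o.toBasis (z := X ξ) (fun h5 => hξ (hρ.inj ξ h5)) h3
    rw [OrthonormalBasis.coe_toBasis] at h4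
    exact h4

/-- **fibre integrals of equivariant forms are basic** -/
theorem basic_SI1 (h : Bun DB DS DF F π q ev) (hρ : Rt (Dif.lin ℝ) ρ) {R : S × ℝ → S}
    (hR : (DS.prod (Dif.lin ℝ)).Map DS R) (hev : ∀ f ξ t, ‖ξ‖ = 1 → R (ev (f, ξ), t) = ev (f, ρ t ξ))
    {φ : B × ℝ → B} (hφ : (DB.prod (Dif.lin ℝ)).Map DB φ) {Φ : S × ℝ → S}
    (hΦ : (DS.prod (Dif.lin ℝ)).Map DS Φ) {φF : Fr × ℝ → Fr}
    (hφF : (DF.prod (Dif.lin ℝ)).Map DF φF) (hqφ : ∀ f t, q (φF (f, t)) = φ (q f, t))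
    (hΦe : ∀ f ξ t, ‖ξ‖ = 1 → Φ (ev (f, ξ), t) = ev (φF (f, t), ξ)) {w : Form DS}
    (hw : Form.pull Φ hΦ w = Form.pull R hR w) : Basic φ hφ (h.SI o w) := by
  refine pull_inj (quo_cyl h.hq) ?_
  have k1 : (DF.prod (Dif.lin ℝ)).Map DB (fun p : Fr × ℝ => q (φF p)) := fun hu => h.hq.map (hφF hu)
  have k2 : (DF.prod (Dif.lin ℝ)).Map DB (fun p : Fr × ℝ => q p.1) :=
    fun hu => h.hq.map (Dif.map_fst hu)
  rw [pull_pull (k := fun p : Fr × ℝ => q (φF p)) (quo_cyl h.hq).map hφ k1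
    (fun p => (hqφ p.1 p.2).symm), pr, pull_pull (k := fun p : Fr × ℝ => q p.1)
    (quo_cyl h.hq).map Dif.map_fst k2 (fun p => rfl),
    ← pull_pull (k := fun p : Fr × ℝ => q (φF p)) hφF h.hq.map k1 (fun p => rfl),
    ← pull_pull (k := fun p : Fr × ℝ => q p.1) Dif.map_fst h.hq.map k2 (fun p => rfl),
    h.pull_SI o, ← si_nat o hφF, ← am_si o Dif.map_fst (rt_snd hρ)]
  congr 1
  refine Form.ext_val fun E _ _ _ u x hu => ?_
  have h1 : (SB DF F).At (fun y => ((u y).1.1, (u y).2)) x :=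
    ⟨⟨hu.1.1.1, hu.1.2⟩, hu.2⟩
  have h2 : (DS.prod (Dif.lin ℝ)).At (fun y => (ev ((u y).1.1, (u y).2), (u y).1.2)) x :=
    ⟨h.hev h1, hu.1.1.2⟩
  rw [pull_am_ev1 h hρ hR hev w hu, ← hw, Form.pull_val _ _ h2, Form.pull_val _ _ hu,
    Form.pull_val _ _ (map_SB hφF hu)]
  refine w.congr (h.hev (map_SB hφF hu)) ?_
  filter_upwards [hu.2] with y hy
  exact (hΦe _ _ _ hy).symm

/-- fibre integrals of basic forms are basic -/
theorem basic_SI1' (h : Bun DB DS DF F π q ev)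
    {φ : B × ℝ → B} (hφ : (DB.prod (Dif.lin ℝ)).Map DB φ) {Φ : S × ℝ → S}
    (hΦ : (DS.prod (Dif.lin ℝ)).Map DS Φ) {φF : Fr × ℝ → Fr}
    (hφF : (DF.prod (Dif.lin ℝ)).Map DF φF) (hqφ : ∀ f t, q (φF (f, t)) = φ (q f, t))
    (hΦe : ∀ f ξ t, ‖ξ‖ = 1 → Φ (ev (f, ξ), t) = ev (φF (f, t), ξ)) {w : Form DS}
    (hw : Basic Φ hΦ w) : Basic φ hφ (h.SI o w) :=
  basic_SI1 o h (ρ := fun _ => ContinuousLinearMap.id ℝ F) rt_id (R := Prod.fst) Dif.map_fst
    (fun _ _ _ _ => rfl) hφ hΦ hφF hqφ hΦe hw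

end SIB

end Vale.Agent.P231.XC
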