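import Vale.Agent.P231.XC.SIEta
import Vale.Agent.P231.XC.Groth
import Vale.Agent.P231.XC.Ver

/-!
# P231, stage 3: fibre integrals of basic forms of `S(ξ ⊗ ℂ)`
-/

set_option linter.unusedSectionVars false
set_option linter.unusedVariables false

open MeasureTheory Matrix Set Filter Topology Module
open scoped ContDiff

namespace Vale.Agent.P231.XC

open Fm W H584 ChW X3 SEG

noncomputable section

/-! ### the rotations of the model fibre -/

/-- multiplication by `i` on the model fibre -/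
def Jf (l : ℕ) : Fl l →L[ℝ] Fl l :=
  (czL l).symm.toContinuousLinearMap ∘L
    ((Complex.I • ContinuousLinearMap.id ℂ (Fin l → ℂ)).restrictScalars ℝ) ∘L
      (czL l).toContinuousLinearMap

theorem cz_Jf (l : ℕ) (ξ : Fl l) : cz l (Jf l ξ) = Complex.I • cz l ξ := by
  rw [← czL_apply, ← czL_apply]
  exact (czL l).apply_symm_apply _

/-- the rotation by `2πt` -/
def ρf (l : ℕ) (t : ℝ) : Fl l →L[ℝ] Fl l :=
  Real.cos (2 * Real.pi * t) • ContinuousLinearMap.id ℝ (Fl l) +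
    Real.sin (2 * Real.pi * t) • Jf l

theorem cz_ρf (l : ℕ) (t : ℝ) (ξ : Fl l) :
    cz l (ρf l t ξ) = Cor.ph (2 * Real.pi * t) • cz l ξ := by
  have h1 : ρf l t ξ = Real.cos (2 * Real.pi * t) • ξ + Real.sin (2 * Real.pi * t) • Jf l ξ := rfl
  rw [h1, cz_add, cz_smul, cz_smul, cz_Jf]
  ext j
  simp only [Pi.add_apply, Pi.smul_apply, Cor.ph, Complex.real_smul, smul_eq_mul]
  ring

theorem norm_ρf (l : ℕ) (t : ℝ) (ξ : Fl l) : ‖ρf l t ξ‖ = ‖ξ‖ := by
  have h1 := uni_cz (l := l) (ρf l t ξ)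
  have h2 := uni_cz (l := l) ξ
  have h3 : ∑ j, (starRingEnd ℂ) (cz l (ρf l t ξ) j) * cz l (ρf l t ξ) j =
      ∑ j, (starRingEnd ℂ) (cz l ξ j) * cz l ξ j := by
    refine Finset.sum_congr rfl fun j _ => ?_
    rw [cz_ρf, Pi.smul_apply, smul_eq_mul, map_mul]
    linear_combination (starRingEnd ℂ) (cz l ξ j) * cz l ξ j * ph_conj (2 * Real.pi * t)
  rw [h1, h2] at h3
  have h5 : ‖ρf l t ξ‖ ^ 2 = ‖ξ‖ ^ 2 := by exact_mod_cast h3
  exact (sq_eq_sq₀ (norm_nonneg _) (norm_nonneg _)).1 h5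

theorem det_ρf (l : ℕ) (t : ℝ) :
    LinearMap.det ((ρf l t : Fl l →L[ℝ] Fl l) : Fl l →ₗ[ℝ] Fl l) = 1 := by
  set c := Cor.ph (2 * Real.pi * t) with hc
  have h1 : ((ρf l t : Fl l →L[ℝ] Fl l) : Fl l →ₗ[ℝ] Fl l) =
      (czL l).symm.toLinearEquiv.toLinearMap ∘ₗ
        ((c • (LinearMap.id : (Fin l → ℂ) →ₗ[ℂ] (Fin l → ℂ))).restrictScalars ℝ) ∘ₗ
          ((czL l).symm.toLinearEquiv.symm).toLinearMap := by
    ext1 ξ
    change ρf l t ξ = (czL l).symm (c • (czL l ξ))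
    rw [ContinuousLinearEquiv.eq_symm_apply]
    exact cz_ρf l t ξ
  have h2 : Complex.normSq c = 1 := by
    have h3 := ph_conj (2 * Real.pi * t)
    rw [← hc, ← Complex.normSq_eq_conj_mul_self] at h3
    exact_mod_cast h3
  rw [h1, LinearMap.det_conj, LinearMap.det_restrictScalars, LinearMap.det_smul,
    Algebra.norm_complex_apply, LinearMap.det_id, mul_one, map_pow, h2, one_pow]

theorem contDiff_ρf (l : ℕ) : ContDiff ℝ ∞ (ρf l) := by
  unfold ρf
  exact ((Real.contDiff_cos.comp (contDiff_const.mul contDiff_id)).smul contDiff_const).add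
    ((Real.contDiff_sin.comp (contDiff_const.mul contDiff_id)).smul contDiff_const)

theorem rt_ρf (l : ℕ) : Co.Rt (Dif.lin ℝ) (ρf l) where
  map := fun {E} _ _ _ {u x} h => Sm.comp (f := ρf l) (Sm.of_contDiff (contDiff_ρf l) _) h
  iso := fun {E} _ _ _ {u x} _ ξ => norm_ρf l _ ξ
  det := fun {E} _ _ _ {u x} _ => det_ρf l _

theorem vr_ρf (l : ℕ) : VR (ρf l) ((2 * Real.pi) • Jf l) where
  rt := rt_ρf l
  zero := by
    ext1 ξ
    simp [ρf]
  der := by
    have h1 : HasDerivAt (fun t : ℝ => 2 * Real.pi * t) (2 * Real.pi) 0 := by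
      simpa using (hasDerivAt_id (0 : ℝ)).const_mul (2 * Real.pi)
    have h2 := (h1.cos.smul_const (ContinuousLinearMap.id ℝ (Fl l))).add
      (h1.sin.smul_const (Jf l))
    have h3 := h2.hasFDerivAt
    refine h3.congr_fderiv ?_
    ext1
    simp
  inj ξ h := by
    have h1 : Jf l ξ = 0 := by
      have h2 : (2 * Real.pi) • Jf l ξ = 0 := h
      exact (smul_eq_zero.1 h2).resolve_left (by positivity)
    have h3 := cz_Jf l ξ
    rw [h1] at h3
    have h4 : cz l (0 : Fl l) = 0 := (czL l).map_zero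
    rw [h4] at h3
    have h5 : cz l ξ = 0 := (smul_eq_zero.1 h3.symm).resolve_left Complex.I_ne_zero
    have h6 := rz_cz (l := l) ξ
    rw [← h6, h5]
    exact (congrArg (WithLp.toLp 2) (EN.Std.Lc l).symm.map_zero).trans rfl

/-! ### the flow of the frames -/

variable {B : Type*} {DB : Dif B} {ι : Type} [Fintype ι] [DecidableEq ι]
  {P : B → Matrix ι ι ℝ} {l : ℕ} {φ : B × ℝ → B}

/-- the flow of the frames -/
def frf (φ : B × ℝ → B) (hP : ∀ b t, P (φ (b, t)) = P b) (q : Fr P l × ℝ) : Fr P l :=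
  Fr.mk (φ (q.1.b, q.2)) q.1.f (by rw [hP]; exact q.1.isFr)

theorem map_frf (hP : ∀ b t, P (φ (b, t)) = P b) (hφ : (DB.prod (Dif.lin ℝ)).Map DB φ) :
    ((dFr DB P l).prod (Dif.lin ℝ)).Map (dFr DB P l) (frf φ hP) := fun {E} _ _ _ {u x} h =>
  ⟨hφ (u := fun y => ((u y).1.b, (u y).2)) ⟨map_Fb h.1, h.2⟩,
    map_Ff (DB := DB) (u := fun y => (u y).1) h.1⟩

variable [NeZero l]

theorem rot_ev (f : Fr P l) (ξ : Fl l) (t : ℝ) (h : ‖ξ‖ = 1) :
    rot (ev (f, ξ), t) = ev (f, ρf l t ξ) := by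
  refine XS.ext (by rw [rot_b, ev_b, ev_b]) ?_
  rw [rot_z, ev_z' _ _ h, ev_z' _ _ (by rw [norm_ρf, h]), cz_ρf]
  ext i
  simp only [cmb, Pi.smul_apply, smul_eq_mul, Finset.mul_sum, mul_assoc]

theorem lft_ev (hP : ∀ b t, P (φ (b, t)) = P b) (f : Fr P l) (ξ : Fl l) (t : ℝ) (h : ‖ξ‖ = 1) :
    lft φ hP (ev (f, ξ), t) = ev (frf φ hP (f, t), ξ) := by
  refine XS.ext (by rw [lft_b, ev_b, ev_b]; rfl) ?_
  rw [lft_z, ev_z' _ _ h, ev_z' _ _ h]
  rfl

/-- **the fibre integral of a form basic for the rotation vanishes** -/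
theorem SI_rot (h : Pj DB P l) {w : Form (dX DB P)} (hw : Basic rot map_rot w) :
    (bun h).SI (ob l) w = 0 :=
  SI_eq_zero_of_basic1 (ob l) (bun h) (vr_ρf l) map_rot rot_ev hw

/-- fibre integrals of forms basic for the lifted flow -/
theorem SI_lft (h : Pj DB P l) (hP : ∀ b t, P (φ (b, t)) = P b)
    (hφ : (DB.prod (Dif.lin ℝ)).Map DB φ) {w : Form (dX DB P)}
    (hw : Basic (lft φ hP) (map_lft hP hφ) w) : Basic φ hφ ((bun h).SI (ob l) w) :=
  basic_SI1' (ob l) (bun h) hφ (map_lft hP hφ) (map_frf hP hφ) (fun _ _ => rfl) (lft_ev hP) hw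

/-- the rotation run backwards with another speed -/
def rb (T : ℝ) (q : XS P × ℝ) : XS P := rot (q.1, -((2 * T)⁻¹ * q.2))

theorem map_rb (T : ℝ) : ((dX DB P).prod (Dif.lin ℝ)).Map (dX DB P) (rb T) :=
  fun {E} _ _ _ {u x} h =>
    map_rot (u := fun y => ((u y).1, -((2 * T)⁻¹ * (u y).2))) ⟨h.1, by
      have h2 : Sm (fun y => (u y).2) x := h.2
      filter_upwards [h2] with y hy
      exact (contDiffAt_const.mul hy).neg⟩

theorem dbl_rb (hP : ∀ b t, P (φ (b, t)) = P b) (T : ℝ) (q : XS P × ℝ) :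
    dbl φ hP T (rb T q, q.2) = lft φ hP q := by
  refine XS.ext rfl ?_
  rw [dbl_z, lft_z]
  change Cor.ph _ • Cor.ph (2 * Real.pi * -((2 * T)⁻¹ * q.2)) • q.1.z = q.1.z
  rw [smul_smul, ← ph_add]
  have : 2 * Real.pi * ((2 * T)⁻¹ * q.2) + 2 * Real.pi * -((2 * T)⁻¹ * q.2) = 0 := by ring
  rw [this, ph_zero, one_smul]

theorem pull_lft_of_dbl (hP : ∀ b t, P (φ (b, t)) = P b) (hφ : (DB.prod (Dif.lin ℝ)).Map DB φ)
    (T : ℝ) {w : Form (dX DB P)} (hw : Basic (dbl φ hP T) (map_dbl hP hφ T) w) :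
    Form.pull (lft φ hP) (map_lft hP hφ) w = Form.pull (rb T) (map_rb T) w := by
  have hm : ((dX DB P).prod (Dif.lin ℝ)).Map ((dX DB P).prod (Dif.lin ℝ))
      (fun q : XS P × ℝ => (rb T q, q.2)) := fun {E} _ _ _ {u x} h => ⟨map_rb T h, h.2⟩
  have h0 : Form.pull (dbl φ hP T) (map_dbl hP hφ T) w = pr w := hw
  have h1 := congrArg (Form.pull _ hm) h0
  rw [pull_pull (k := lft φ hP) hm (map_dbl hP hφ T) (map_lft hP hφ) (fun q => dbl_rb hP T q) w,
    pr, pull_pull (k := rb T) hm Dif.map_fst (map_rb T) (fun q => rfl) w] at h1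
  exact h1

theorem rt_ρb (l : ℕ) (T : ℝ) : Co.Rt (Dif.lin ℝ) (fun t => ρf l (-((2 * T)⁻¹ * t))) where
  map := fun {E} _ _ _ {u x} h => Sm.comp (f := fun t => ρf l (-((2 * T)⁻¹ * t)))
    (Sm.of_contDiff ((contDiff_ρf l).comp (contDiff_const.mul contDiff_id).neg) _) h
  iso := fun {E} _ _ _ {u x} _ ξ => norm_ρf l _ ξ
  det := fun {E} _ _ _ {u x} _ => det_ρf l _

/-- fibre integrals of forms basic for the doubled flow -/
theorem SI_dbl (h : Pj DB P l) (hP : ∀ b t, P (φ (b, t)) = P b)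
    (hφ : (DB.prod (Dif.lin ℝ)).Map DB φ) (T : ℝ) {w : Form (dX DB P)}
    (hw : Basic (dbl φ hP T) (map_dbl hP hφ T) w) : Basic φ hφ ((bun h).SI (ob l) w) := by
  exact basic_SI1 (ob l) (bun h) (rt_ρb l T) (map_rb T) (fun f ξ t hξ => rot_ev f ξ _ hξ) hφ
    (map_lft hP hφ) (map_frf hP hφ) (fun _ _ => rfl) (lft_ev hP) (pull_lft_of_dbl hP hφ T hw)

end

end Vale.Agent.P231.XC
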