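import Vale.Agent.P231.XC.Bun
import Vale.Agent.P231.X3.Line
import Vale.Agent.P231.WA.Inv

/-!
# P231, stage 3: the connection form `η = Im ⟨z, dz⟩ / 2π` of the rotation of `S(ξ ⊗ ℂ)`
-/

set_option linter.unusedSectionVars false
set_option linter.unusedVariables false

open Matrix Set Filter Topology Module
open scoped ContDiff

namespace Vale.Agent.P231.XC

open Fm W H584 ChW X3

noncomputable section

variable {B : Type*} {DB : Dif B} {ι : Type} [Fintype ι] [DecidableEq ι]
  {P : B → Matrix ι ι ℝ}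

/-- the real coordinates of `z` -/
def VV (p : XS P) : ι ⊕ ι → ℝ := Sum.elim (fun i => (p.z i).re) (fun i => (p.z i).im)

/-- the real coordinates of `i z` -/
def WW (p : XS P) : ι ⊕ ι → ℝ := Sum.elim (fun i => -(p.z i).im) (fun i => (p.z i).re)

theorem sm_VV (i : ι ⊕ ι) : SmF (dX DB P) (fun p => VV p i) := by
  rcases i with i | i
  · exact (sm_z i).re
  · exact (sm_z i).im

theorem sm_WW (i : ι ⊕ ι) : SmF (dX DB P) (fun p => WW p i) := by
  rcases i with i | i
  · exact (sm_z i).im.neg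
  · exact (sm_z i).re

theorem sum_sq (p : XS P) : ∑ i, ((p.z i).re * (p.z i).re + (p.z i).im * (p.z i).im) = 1 := by
  have h1 := congrArg Complex.re p.uni
  rw [Complex.re_sum, Complex.one_re] at h1
  rw [← h1]
  refine Finset.sum_congr rfl fun i _ => ?_
  simp only [Complex.mul_re, Complex.conj_re, Complex.conj_im]
  ring

theorem VV_VV (p : XS P) : ∑ i, VV p i * VV p i = 1 := by
  rw [Fintype.sum_sum_type, ← Finset.sum_add_distrib]
  exact sum_sq p

theorem WW_WW (p : XS P) : ∑ i, WW p i * WW p i = 1 := by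
  rw [Fintype.sum_sum_type, ← Finset.sum_add_distrib, ← sum_sq p]
  refine Finset.sum_congr rfl fun i _ => ?_
  simp only [WW, Sum.elim_inl, Sum.elim_inr]
  ring

theorem WW_VV (p : XS P) : ∑ i, WW p i * VV p i = 0 := by
  rw [Fintype.sum_sum_type, ← Finset.sum_add_distrib]
  refine Finset.sum_eq_zero fun i _ => ?_
  simp only [WW, VV, Sum.elim_inl, Sum.elim_inr]
  ring

/-- the form `Im ⟨z, dz⟩` -/
def et0 (DB : Dif B) (P : B → Matrix ι ι ℝ) : Form (dX DB P) :=
  conn (sm_VV (DB := DB) (P := P)) sm_WW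

/-- the form `η = Im ⟨z, dz⟩ / 2π` -/
def et (DB : Dif B) (P : B → Matrix ι ι ℝ) : Form (dX DB P) :=
  (2 * Real.pi)⁻¹ • et0 DB P

theorem et0_sg : (et0 DB P).sg = -et0 DB P := conn_sg _ _

theorem et_sg : (et DB P).sg = -et DB P := by
  rw [et, Form.sg_smul, et0_sg, smul_neg]

/-- the rotation with period `2π` -/
def rot0 (q : XS P × ℝ) : XS P :=
  XS.mk q.1.b (Cor.ph q.2 • q.1.z) (by rw [Matrix.mulVec_smul, q.1.Pz])
    (uni_smul (ph_conj _) q.1.uni)

theorem map_rot0 : ((dX DB P).prod (Dif.lin ℝ)).Map (dX DB P) rot0 := fun {E} _ _ _ {u x} h => by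
  refine ⟨h.1.1, ?_⟩
  change Sm (fun y => Cor.ph (u y).2 • (u y).1.z) x
  have h1 : Sm (fun y => (u y).2) x := h.2
  have h2 : Sm (fun y => (u y).1.z) x := map_z h.1
  filter_upwards [h1, h2] with y hy1 hy2
  exact (contDiff_ph.contDiffAt.comp y hy1).smul hy2

theorem rot_eq (q : XS P × ℝ) : rot q = rot0 (q.1, 2 * Real.pi * q.2) := rfl

theorem VV_rot0 (p : XS P) (t : ℝ) (i : ι ⊕ ι) :
    VV (rot0 (p, t)) i = Real.cos t * VV p i + Real.sin t * WW p i := by
  rcases i with i | i
  · change (Cor.ph t * p.z i).re = _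
    simp only [Cor.ph, VV, WW, Sum.elim_inl, Complex.mul_re, Complex.add_re, Complex.add_im,
      Complex.mul_im, Complex.ofReal_re, Complex.ofReal_im, Complex.I_re, Complex.I_im]
    ring
  · change (Cor.ph t * p.z i).im = _
    simp only [Cor.ph, VV, WW, Sum.elim_inr, Complex.mul_re, Complex.add_re, Complex.add_im,
      Complex.mul_im, Complex.ofReal_re, Complex.ofReal_im, Complex.I_re, Complex.I_im]
    ring

theorem WW_rot0 (p : XS P) (t : ℝ) (i : ι ⊕ ι) :
    WW (rot0 (p, t)) i = -Real.sin t * VV p i + Real.cos t * WW p i := by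
  rcases i with i | i
  · change -(Cor.ph t * p.z i).im = _
    simp only [Cor.ph, VV, WW, Sum.elim_inl, Complex.mul_re, Complex.add_re, Complex.add_im,
      Complex.mul_im, Complex.ofReal_re, Complex.ofReal_im, Complex.I_re, Complex.I_im]
    ring
  · change (Cor.ph t * p.z i).re = _
    simp only [Cor.ph, VV, WW, Sum.elim_inr, Complex.mul_re, Complex.add_re, Complex.add_im,
      Complex.mul_im, Complex.ofReal_re, Complex.ofReal_im, Complex.I_re, Complex.I_im]
    ring

theorem et0_rot0 : Form.pull rot0 map_rot0 (et0 DB P) = pr (et0 DB P) + dt :=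
  conn_rot sm_VV sm_WW VV_VV WW_WW WW_VV map_rot0 VV_rot0 WW_rot0

/-- **`η` is a connection form of the rotation** -/
theorem et_rot : Form.pull rot map_rot (et DB P) = pr (et DB P) + dt := by
  have h1 : Form.pull rot map_rot (et0 DB P) = pr (et0 DB P) + (2 * Real.pi) • dt := by
    have h2 := pull_pull (D := (dX DB P).prod (Dif.lin ℝ)) (D' := (dX DB P).prod (Dif.lin ℝ))
      (D'' := dX DB P) (W.map_scale (2 * Real.pi)) map_rot0 (k := rot) map_rot
      (fun q => (rot_eq q).symm) (et0 DB P)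
    have h3 := WA.scale_dt (D := dX DB P) (2 * Real.pi)
    have h4 := WA.scale_pr (D := dX DB P) (2 * Real.pi) (et0 DB P)
    rw [← h2, et0_rot0]
    refine (map_add (Form.pullA _ (W.map_scale (2 * Real.pi))) _ _).trans ?_
    exact congrArg₂ (· + ·) h4 h3
  have h5 : (2 * Real.pi)⁻¹ * (2 * Real.pi) = 1 := inv_mul_cancel₀ (by positivity)
  have h6 : Form.pull rot map_rot (et DB P) = (2 * Real.pi)⁻¹ • Form.pull rot map_rot (et0 DB P) :=
    map_smul (Form.pullA rot map_rot) _ _
  have h7 : pr (et DB P) = (2 * Real.pi)⁻¹ • pr (et0 DB P) :=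
    map_smul (Form.pullA (Prod.fst : XS P × ℝ → XS P) Dif.map_fst) _ _
  rw [h6, h1, smul_add, smul_smul, h5, one_smul, h7]

/-! ### the lifted flow -/

variable {φ : B × ℝ → B}

theorem conn_basic {X : Type*} {D : Dif X} {n : Type*} [Fintype n] {V Wv : X → n → ℝ}
    (hV : ∀ i, SmF D (fun x => V x i)) (hW : ∀ i, SmF D (fun x => Wv x i))
    {Φ : X × ℝ → X} (hΦ : (D.prod (Dif.lin ℝ)).Map D Φ) (h1 : ∀ x t, V (Φ (x, t)) = V x)
    (h2 : ∀ x t, Wv (Φ (x, t)) = Wv x) : Basic Φ hΦ (conn hV hW) := by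
  rw [basic_def]
  change Form.pullA Φ hΦ (∑ i, X3.fr _ (hW i) * (X3.fr _ (hV i)).d) =
    Form.pullA (Prod.fst : X × ℝ → X) Dif.map_fst (∑ i, X3.fr _ (hW i) * (X3.fr _ (hV i)).d)
  rw [map_sum, map_sum]
  refine Finset.sum_congr rfl fun i _ => ?_
  rw [map_mul, map_mul]
  have k1 : Form.pullA Φ hΦ (X3.fr _ (hW i)) =
      Form.pullA (Prod.fst : X × ℝ → X) Dif.map_fst (X3.fr _ (hW i)) :=
    (pull_fr (hW i) hΦ).trans ((fr_congr _ _ fun q => by rw [h2]).trans
      (pull_fr (hW i) Dif.map_fst).symm)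
  have k2 : Form.pullA Φ hΦ (X3.fr _ (hV i)) =
      Form.pullA (Prod.fst : X × ℝ → X) Dif.map_fst (X3.fr _ (hV i)) :=
    (pull_fr (hV i) hΦ).trans ((fr_congr _ _ fun q => by rw [h1]).trans
      (pull_fr (hV i) Dif.map_fst).symm)
  have k3 : Form.pullA Φ hΦ (X3.fr _ (hV i)).d =
      Form.pullA (Prod.fst : X × ℝ → X) Dif.map_fst (X3.fr _ (hV i)).d := by
    change Form.pull Φ hΦ (X3.fr _ (hV i)).d = Form.pull Prod.fst Dif.map_fst (X3.fr _ (hV i)).d
    rw [Form.pull_d, Form.pull_d]
    exact congrArg Form.d k2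
  rw [k1, k3]

theorem basic_et (hP : ∀ b t, P (φ (b, t)) = P b) (hφ : (DB.prod (Dif.lin ℝ)).Map DB φ) :
    Basic (lft φ hP) (map_lft hP hφ) (et DB P) :=
  Basic.smul _ (conn_basic _ _ _ (fun _ _ => rfl) fun _ _ => rfl)

/-- the curvature `h = dη` is basic for both flows -/
theorem fam_B_det (hP : ∀ b t, P (φ (b, t)) = P b) (hφ : (DB.prod (Dif.lin ℝ)).Map DB φ) :
    (fam φ hP hφ).B (et DB P).d := by
  intro i
  cases i
  · change Basic rot map_rot _
    rw [basic_def, Form.pull_d, et_rot, Form.d_add]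
    have h1 : (dt (D := dX DB P)).d = 0 := H584.dt_d
    rw [h1, add_zero]
    exact (Form.pull_d _ Dif.map_fst _).symm
  · exact Basic.d (basic_et hP hφ)

/-! ### the line -/

/-- the projection onto the line spanned by `z` -/
def lin1 (p : XS P) : Matrix ι ι ℂ := lin p.z

theorem sm_lin1 : SmM (dX DB P) (lin1 (P := P)) := fun i j => (sm_z i).mul (sm_z j).conj

theorem lin1_idem (p : XS P) : lin1 p * lin1 p = lin1 p := lin_lin p.uni

theorem lin1_rot (p : XS P) (t : ℝ) : lin1 (rot (p, t)) = lin1 p :=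
  lin_phase _ (ph_conj _) _

/-- the first Chern form of the line -/
theorem ch_lin1 : ch 1 (cM (lin1 (P := P)) (sm_lin1 (DB := DB))) = ⟨0, (et0 DB P).d⟩ := by
  set a : ι → Form (dX DB P) := fun i => X3.fr _ (sm_z i).re with ha
  set c : ι → Form (dX DB P) := fun i => X3.fr _ (sm_z i).im with hc
  have ea : ∀ i, (a i).sg = a i := fun i => sg_fr _
  have ec : ∀ i, (c i).sg = c i := fun i => sg_fr _
  have ac : ∑ i, (a i * a i + c i * c i) = 1 := by
    have h1 : ∀ i, a i * a i + c i * c i = X3.fr (D := dX DB P)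
        (fun p => (p.z i).re * (p.z i).re + (p.z i).im * (p.z i).im)
        (((sm_z i).re.mul (sm_z i).re).add ((sm_z i).im.mul (sm_z i).im)) := fun i => by
      rw [fr_add ((sm_z i).re.mul (sm_z i).re) ((sm_z i).im.mul (sm_z i).im), fr_mul, fr_mul]
    rw [Finset.sum_congr rfl fun i _ => h1 i]
    have h2 := fr_sum (D := dX DB P) Finset.univ
      (f := fun i (p : XS P) => (p.z i).re * (p.z i).re + (p.z i).im * (p.z i).im)
      fun i => ((sm_z i).re.mul (sm_z i).re).add ((sm_z i).im.mul (sm_z i).im)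
    rw [← fr_one, ← h2]
    exact fr_congr _ _ sum_sq
  have cm : ∀ i, a i * c i = c i * a i := fun i => Form.mul_comm_of_even (ea i) _
  set U : Matrix ι Unit (CF (dX DB P)) := fun i _ => ⟨a i, c i⟩ with hU
  set T : Matrix Unit ι (CF (dX DB P)) := fun _ i => ⟨a i, -c i⟩ with hT
  have evU : Ev U := by
    unfold Ev
    ext1 i j
    ext1
    · exact ea i
    · exact ec i
  have evT : Ev T := by
    unfold Ev
    ext1 i j
    ext1
    · exact ea j
    · change (-c j).sg = -c j
      rw [Form.sg_neg, ec]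
  have re_sum : ∀ f : ι → CF (dX DB P), (∑ i, f i).re = ∑ i, (f i).re := fun f =>
    map_sum (reH (A := Form (dX DB P))) _ _
  have im_sum : ∀ f : ι → CF (dX DB P), (∑ i, f i).im = ∑ i, (f i).im := fun f =>
    map_sum (imH (A := Form (dX DB P))) _ _
  have hTU : T * U = 1 := by
    ext1 i j
    rw [Matrix.mul_apply, Subsingleton.elim i j, Matrix.one_apply_eq]
    ext1
    · rw [re_sum]
      have : ∀ k, (T j k * U k j).re = a k * a k + c k * c k := by
        intro k
        rw [Cx.mul_re]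
        change a k * a k - -c k * c k = _
        rw [neg_mul, sub_neg_eq_add]
      simp only [this]
      exact ac
    · rw [im_sum]
      have : ∀ k, (T j k * U k j).im = 0 := by
        intro k
        rw [Cx.mul_im]
        change a k * c k + -c k * a k = _
        rw [neg_mul, cm, add_neg_cancel]
      simp only [this]
      rw [Finset.sum_const_zero]
      rfl
  have hUT : U * T = cM (lin1 (P := P)) sm_lin1 := by
    ext1 i j
    rw [Matrix.mul_apply, Fintype.sum_unique, cM_apply]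
    ext1
    · rw [Cx.mul_re, cf_re]
      change a i * a j - c i * -c j = _
      rw [mul_neg, sub_neg_eq_add, ha, hc, ← fr_mul, ← fr_mul, ← fr_add]
      refine fr_congr _ _ fun p => ?_
      simp only [lin1, lin, Complex.mul_re, Complex.conj_re, Complex.conj_im]
      ring
    · rw [Cx.mul_im, cf_im]
      change a i * -c j + c i * a j = _
      rw [mul_neg, ha, hc, ← fr_mul, ← fr_mul, ← fr_neg, ← fr_add]
      refine fr_congr _ _ fun p => ?_
      simp only [lin1, lin, Complex.mul_im, Complex.conj_re, Complex.conj_im]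
      ring
  have half : ∀ a : Form (dX DB P), a + a = 0 → a = 0 := fun a ha => by
    have h2 : (2 : ℝ) • a = 0 := by rw [two_smul, ha]
    exact (smul_eq_zero.1 h2).resolve_left two_ne_zero
  have dsum : ∀ f : ι → Form (dX DB P), (∑ i, f i).d = ∑ i, (f i).d := fun f =>
    map_sum (GDA.d (A := Form (dX DB P))) _ _
  have ada : ∑ i, (a i * (a i).d + c i * (c i).d) = 0 := by
    refine half _ ?_
    have h4 := congrArg Form.d ac
    rw [dsum, Form.d_one] at h4
    rw [← Finset.sum_add_distrib, ← h4]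
    refine Finset.sum_congr rfl fun i _ => ?_
    rw [Form.d_add, Form.d_mul, Form.d_mul, ea, ec, Form.mul_comm_of_even (ea i) (a i).d,
      Form.mul_comm_of_even (ec i) (c i).d]
    abel
  have e0 : et0 DB P = ∑ i, (a i * (c i).d - c i * (a i).d) := by
    rw [et0, conn, Fintype.sum_sum_type, ← Finset.sum_add_distrib]
    refine Finset.sum_congr rfl fun i _ => ?_
    have k1 : X3.fr _ (sm_WW (DB := DB) (P := P) (Sum.inl i)) = -c i := fr_neg _
    have k2 : X3.fr _ (sm_WW (DB := DB) (P := P) (Sum.inr i)) = a i := rfl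
    have k3 : X3.fr _ (sm_VV (DB := DB) (P := P) (Sum.inl i)) = a i := rfl
    have k4 : X3.fr _ (sm_VV (DB := DB) (P := P) (Sum.inr i)) = c i := rfl
    rw [k1, k2, k3, k4, neg_mul]
    abel
  have hθ : T * dM U = fun _ _ => ⟨0, et0 DB P⟩ := by
    ext1 i j
    rw [Matrix.mul_apply]
    ext1
    · rw [re_sum]
      have : ∀ k, (T i k * dM U k j).re = a k * (a k).d + c k * (c k).d := by
        intro k
        rw [Cx.mul_re]
        change a k * (a k).d - -c k * (c k).d = _
        rw [neg_mul, sub_neg_eq_add]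
      simp only [this]
      exact ada
    · rw [im_sum]
      have : ∀ k, (T i k * dM U k j).im = a k * (c k).d - c k * (a k).d := by
        intro k
        rw [Cx.mul_im]
        change a k * (c k).d + -c k * (a k).d = _
        rw [neg_mul, sub_eq_add_neg]
      simp only [this]
      exact e0.symm
  rw [← hUT, ch_one_vec evU evT hTU, hθ, trace, Fintype.sum_unique]
  ext1
  · exact Form.d_zero
  · rfl

/-- `s_1 = -h` -/
theorem sC_lin1 : sC 1 (cM (lin1 (P := P)) (sm_lin1 (DB := DB))) = Cx.of (-(et DB P).d) := by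
  have h4 : (Complex.I / (2 * Real.pi) : ℂ) = ((1 / (2 * Real.pi) : ℝ) : ℂ) * Complex.I := by
    push_cast
    ring
  have h5 : -(et DB P).d = -((1 / (2 * Real.pi)) • (et0 DB P).d) := by
    rw [et, Form.d_smul, one_div]
  rw [sC, ch_lin1, nrm, pow_one, h4, h5]
  ext1
  · rw [Cx.smul_re, Cx.of_re, Complex.re_ofReal_mul, Complex.im_ofReal_mul, Complex.I_re,
      Complex.I_im, mul_zero, zero_smul, zero_sub, mul_one]
  · rw [Cx.smul_im, Cx.of_im, Complex.re_ofReal_mul, Complex.im_ofReal_mul, Complex.I_re,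
      Complex.I_im, mul_zero, zero_smul, zero_add, mul_one, smul_zero]

theorem sF_lin1 : sF 1 (cM (lin1 (P := P)) (sm_lin1 (DB := DB))) = -(et DB P).d :=
  congrArg Cx.re sC_lin1

end

end Vale.Agent.P231.XC
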