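import Vale.Agent.P231.XC.Space
import Vale.Agent.P231.EN.Std
import Vale.Agent.P231.Co.SIPart

/-!
# P231, stage 3: the unit sphere bundle of `range P ⊗ ℂ` as a sphere bundle with frames
-/

set_option linter.unusedSectionVars false
set_option linter.unusedVariables false

open Matrix Set Filter Topology
open scoped ContDiff

namespace Vale.Agent.P231.XC

open Fm W ChW X3

noncomputable section

/-! ### pointwise: projections and orthonormal frames -/

section Pt

variable {ι : Type} [Fintype ι] [DecidableEq ι] {l : ℕ}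

/-- orthonormal frames of the range of `A` -/
structure IsFr (A : Matrix ι ι ℝ) (f : Fin l → ι → ℝ) : Prop where
  fix : ∀ j, A *ᵥ f j = f j
  on : ∀ j k, f j ⬝ᵥ f k = if j = k then 1 else 0

/-- the projection onto the span of a frame -/
def frp (f : Fin l → ι → ℝ) : Matrix ι ι ℝ := ∑ j, vecMulVec (f j) (f j)

theorem frp_mulVec (f : Fin l → ι → ℝ) (x : ι → ℝ) : frp f *ᵥ x = ∑ j, (f j ⬝ᵥ x) • f j := by
  ext i
  rw [Finset.sum_apply]
  simp only [frp, Matrix.mulVec, dotProduct, Matrix.sum_apply, Matrix.vecMulVec_apply,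
    Finset.sum_mul, Pi.smul_apply, smul_eq_mul]
  rw [Finset.sum_comm]
  refine Finset.sum_congr rfl fun j _ => ?_
  refine Finset.sum_congr rfl fun k _ => ?_
  ring

theorem frp_tr (f : Fin l → ι → ℝ) : (frp f)ᵀ = frp f := by
  rw [frp, Matrix.transpose_sum]
  refine Finset.sum_congr rfl fun j _ => ?_
  ext i k
  simp only [Matrix.transpose_apply, Matrix.vecMulVec_apply]
  ring

theorem trace_frp {A : Matrix ι ι ℝ} {f : Fin l → ι → ℝ} (h : IsFr A f) : trace (frp f) = l := by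
  rw [frp, Matrix.trace_sum]
  have : ∀ j, trace (vecMulVec (f j) (f j)) = 1 := fun j => by
    rw [Matrix.trace_vecMulVec, h.on, if_pos rfl]
  simp [this]

theorem mul_frp {A : Matrix ι ι ℝ} {f : Fin l → ι → ℝ} (h : IsFr A f) : A * frp f = frp f := by
  refine ext_mulVec fun x => ?_
  rw [← Matrix.mulVec_mulVec, frp_mulVec, Matrix.mulVec_sum]
  refine Finset.sum_congr rfl fun j _ => ?_
  rw [Matrix.mulVec_smul, h.fix]

theorem isFr_frp {A : Matrix ι ι ℝ} {f : Fin l → ι → ℝ} (h : IsFr A f) : IsFr (frp f) f where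
  fix j := by
    rw [frp_mulVec]
    simp only [h.on, ite_smul, one_smul, zero_smul]
    simp
  on := h.on

theorem frp_idem {A : Matrix ι ι ℝ} {f : Fin l → ι → ℝ} (h : IsFr A f) :
    frp f * frp f = frp f := mul_frp (isFr_frp h)

/-- a symmetric idempotent of trace zero vanishes -/
theorem eq_zero_of_trace {Q : Matrix ι ι ℝ} (h1 : Q * Q = Q) (h2 : Qᵀ = Q)
    (h3 : trace Q = 0) : Q = 0 := by
  have h4 : trace (Qᴴ * Q) = 0 := by
    rw [Matrix.conjTranspose_eq_transpose_of_trivial, h2, h1, h3]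
  exact Matrix.trace_conjTranspose_mul_self_eq_zero_iff.1 h4

/-- the projection is the one onto the frame -/
theorem IsFr.eq {A : Matrix ι ι ℝ} {f : Fin l → ι → ℝ} (h : IsFr A f) (hA : A * A = A)
    (hA' : Aᵀ = A) (ht : trace A = l) : A = frp f := by
  have h1 : frp f * A = frp f := by
    have := congrArg Matrix.transpose (mul_frp h)
    rwa [Matrix.transpose_mul, frp_tr, hA'] at this
  have h2 := eq_zero_of_trace (Q := A - frp f) (by
    rw [Matrix.sub_mul, Matrix.mul_sub, Matrix.mul_sub, hA, mul_frp h, h1, frp_idem h]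
    abel) (by rw [Matrix.transpose_sub, hA', frp_tr]) (by
    rw [Matrix.trace_sub, ht, trace_frp h, sub_self])
  exact sub_eq_zero.1 h2

/-! ### complex vectors in a frame -/

/-- the complex vector with coordinates `c` -/
def cmb (f : Fin l → ι → ℝ) (c : Fin l → ℂ) : ι → ℂ := fun i => ∑ j, c j * (f j i : ℂ)

/-- the coordinates of a complex vector -/
def cof (f : Fin l → ι → ℝ) (z : ι → ℂ) : Fin l → ℂ := fun j => ∑ i, (f j i : ℂ) * z i

theorem cplx_cmb {A : Matrix ι ι ℝ} {f : Fin l → ι → ℝ} (h : IsFr A f) (c : Fin l → ℂ) :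
    cplx A *ᵥ cmb f c = cmb f c := by
  ext i
  simp only [Matrix.mulVec, dotProduct, cmb, cplx_apply, Finset.mul_sum]
  rw [Finset.sum_comm]
  refine Finset.sum_congr rfl fun j _ => ?_
  have h1 := congrFun (h.fix j) i
  simp only [Matrix.mulVec, dotProduct] at h1
  rw [← h1]
  push_cast
  rw [Finset.mul_sum]
  refine Finset.sum_congr rfl fun k _ => ?_
  ring

theorem cof_cmb {A : Matrix ι ι ℝ} {f : Fin l → ι → ℝ} (h : IsFr A f) (c : Fin l → ℂ) :
    cof f (cmb f c) = c := by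
  ext j
  simp only [cof, cmb, Finset.mul_sum]
  rw [Finset.sum_comm]
  have : ∀ k, ∑ i, (f j i : ℂ) * (c k * (f k i : ℂ)) = if j = k then c k else 0 := by
    intro k
    have h1 := h.on j k
    simp only [dotProduct] at h1
    have h2 : (∑ i, (f j i : ℂ) * (f k i : ℂ)) = if j = k then 1 else 0 := by
      have h5 := congrArg (fun r : ℝ => (r : ℂ)) h1
      push_cast at h5
      rw [h5]
      split_ifs <;> simp
    have h3 : ∑ i, (f j i : ℂ) * (c k * (f k i : ℂ)) = c k * ∑ i, (f j i : ℂ) * (f k i : ℂ) := by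
      rw [Finset.mul_sum]
      refine Finset.sum_congr rfl fun i _ => ?_
      ring
    rw [h3, h2]
    split_ifs <;> simp
  simp only [this]
  simp

theorem cmb_cof {f : Fin l → ι → ℝ} (z : ι → ℂ) : cmb f (cof f z) = cplx (frp f) *ᵥ z := by
  ext i
  simp only [cmb, cof, Matrix.mulVec, dotProduct, cplx_apply, frp, Matrix.sum_apply,
    Matrix.vecMulVec_apply, Finset.sum_mul]
  push_cast
  simp only [Finset.sum_mul]
  rw [Finset.sum_comm]
  refine Finset.sum_congr rfl fun k _ => ?_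
  refine Finset.sum_congr rfl fun j _ => ?_
  ring

theorem uni_cmb {A : Matrix ι ι ℝ} {f : Fin l → ι → ℝ} (h : IsFr A f) (c : Fin l → ℂ) :
    ∑ i, (starRingEnd ℂ) (cmb f c i) * cmb f c i = ∑ j, (starRingEnd ℂ) (c j) * c j := by
  have h1 : ∀ i, (starRingEnd ℂ) (cmb f c i) = ∑ j, (starRingEnd ℂ) (c j) * (f j i : ℂ) := by
    intro i
    simp [cmb]
  simp only [h1, Finset.sum_mul]
  rw [Finset.sum_comm]
  refine Finset.sum_congr rfl fun j _ => ?_
  have h2 : ∀ i, (starRingEnd ℂ) (c j) * (f j i : ℂ) * cmb f c i =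
      (starRingEnd ℂ) (c j) * ((f j i : ℂ) * cmb f c i) := fun i => by ring
  simp only [h2, ← Finset.mul_sum]
  congr 1
  exact congrFun (cof_cmb h c) j

/-! ### real coordinates -/

/-- the model fibre -/
abbrev Fl (l : ℕ) := EuclideanSpace ℝ (Fin (2 * l))

/-- the complex coordinates of the model fibre -/
def cz (l : ℕ) (ξ : Fl l) : Fin l → ℂ := EN.Std.Lc l (WithLp.ofLp ξ)

/-- the inverse -/
def rz (l : ℕ) (c : Fin l → ℂ) : Fl l := WithLp.toLp 2 ((EN.Std.Lc l).symm c)

@[simp] theorem cz_rz (c : Fin l → ℂ) : cz l (rz l c) = c := (EN.Std.Lc l).apply_symm_apply c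

@[simp] theorem rz_cz (ξ : Fl l) : rz l (cz l ξ) = ξ := by
  rw [rz, cz, ContinuousLinearEquiv.symm_apply_apply]

theorem cz_re (ξ : Fl l) (j : Fin l) : (cz l ξ j).re = ξ (EN.Std.i0 l j) := rfl

theorem cz_im (ξ : Fl l) (j : Fin l) : (cz l ξ j).im = ξ (EN.Std.i1 l j) := rfl

theorem norm_sq_cz (ξ : Fl l) : ‖ξ‖ ^ 2 = ∑ j, Complex.normSq (cz l ξ j) := by
  rw [EuclideanSpace.norm_sq_eq, EN.Std.sum_pairs]
  refine Finset.sum_congr rfl fun j _ => ?_
  rw [Complex.normSq_apply, cz_re, cz_im, Real.norm_eq_abs, Real.norm_eq_abs, sq_abs, sq_abs]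
  ring

theorem uni_cz (ξ : Fl l) : ∑ j, (starRingEnd ℂ) (cz l ξ j) * cz l ξ j = ((‖ξ‖ ^ 2 : ℝ) : ℂ) := by
  rw [norm_sq_cz]
  push_cast
  refine Finset.sum_congr rfl fun j _ => ?_
  rw [Complex.normSq_eq_conj_mul_self]

theorem cz_add (ξ ζ : Fl l) : cz l (ξ + ζ) = cz l ξ + cz l ζ := by
  rw [cz, cz, cz, ← map_add]
  rfl

theorem cz_smul (r : ℝ) (ξ : Fl l) : cz l (r • ξ) = r • cz l ξ := by
  rw [cz, cz, ← map_smul]
  rfl

/-- the coordinates as a continuous linear map -/
def czL (l : ℕ) : Fl l ≃L[ℝ] (Fin l → ℂ) :=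
  (EuclideanSpace.equiv (Fin (2 * l)) ℝ).trans (EN.Std.Lc l)

theorem czL_apply (ξ : Fl l) : czL l ξ = cz l ξ := rfl

end Pt

end

end Vale.Agent.P231.XC
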