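import Vale.Agent.P231.XC.SIVal
import Vale.Agent.P231.EN.Std

/-!
# P231, stage 3: the fibre integrals of `η h ^ j`
-/

set_option linter.unusedSectionVars false
set_option linter.unusedVariables false

open MeasureTheory Set Module Filter Topology
open scoped ContDiff

namespace Vale.Agent.P231.XC

open Fm W H584 ChW X3

noncomputable section

section Conn

variable {X : Type*} {n : Type*} [Fintype n] {D : Dif X}

/-- the value at a point as a ring homomorphism up to the unit -/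
def valH {E : Type} [NormedAddCommGroup E] [NormedSpace ℝ E] [FiniteDimensional ℝ E] (u : E → X)
    (x : E) : Form D →+ Lam E where
  toFun w := w.val u x
  map_zero' := Form.zero_val u x
  map_add' a b := Form.add_val a b u x

theorem conn_val {V Wv : X → n → ℝ} (hV : ∀ i, SmF D (fun x => V x i))
    (hW : ∀ i, SmF D (fun x => Wv x i)) {E : Type} [NormedAddCommGroup E] [NormedSpace ℝ E]
    [FiniteDimensional ℝ E] {u : E → X} {x : E} (h : D.At u x) :
    (conn hV hW).val u x = dx (∑ i, Wv (u x) i • fderiv ℝ (fun s => V (u s) i) x) := by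
  have h1 : (conn hV hW).val u x = ∑ i, (X3.fr _ (hW i) * (X3.fr _ (hV i)).d).val u x :=
    map_sum (valH (D := D) u x) (fun i => X3.fr _ (hW i) * (X3.fr _ (hV i)).d) Finset.univ
  rw [h1, map_sum]
  refine Finset.sum_congr rfl fun i _ => ?_
  rw [Form.mul_val, fr_val _ _ h, fr_d_val _ h, map_smul, Algebra.smul_def]

theorem pow_val' (w : Form D) {E : Type} [NormedAddCommGroup E] [NormedSpace ℝ E]
    [FiniteDimensional ℝ E] {u : E → X} {x : E} (h : D.At u x) (k : ℕ) :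
    (w ^ k).val u x = w.val u x ^ k := by
  induction k with
  | zero => rw [pow_zero, pow_zero, Form.one_val h]
  | succ k ih => rw [pow_succ, pow_succ, Form.mul_val, ih]

end Conn

section Lin

variable {ι : Type} [Fintype ι] [DecidableEq ι] {l : ℕ}

theorem cmb_cmb {A : Matrix ι ι ℝ} {f : Fin l → ι → ℝ} (h : IsFr A f) (c d : Fin l → ℂ) :
    ∑ i, (starRingEnd ℂ) (cmb f c i) * cmb f d i = ∑ j, (starRingEnd ℂ) (c j) * d j := by
  have h1 : ∀ i, (starRingEnd ℂ) (cmb f c i) = ∑ j, (starRingEnd ℂ) (c j) * (f j i : ℂ) := by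
    intro i
    simp [cmb]
  simp only [h1, Finset.sum_mul]
  rw [Finset.sum_comm]
  refine Finset.sum_congr rfl fun j _ => ?_
  have h2 : ∀ i, (starRingEnd ℂ) (c j) * (f j i : ℂ) * cmb f d i =
      (starRingEnd ℂ) (c j) * ((f j i : ℂ) * cmb f d i) := fun i => by ring
  simp only [h2, ← Finset.mul_sum]
  congr 1
  exact congrFun (cof_cmb h d) j

/-- `ξ ↦ ∑ z_j(ξ) f_j` -/
def cmL (f : Fin l → ι → ℝ) : Fl l →L[ℝ] (ι → ℂ) :=
  LinearMap.toContinuousLinearMap
    { toFun := fun ξ => cmb f (cz l ξ)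
      map_add' := fun a b => by
        rw [cz_add]
        ext i
        simp [cmb, add_mul, Finset.sum_add_distrib]
      map_smul' := fun r a => by
        rw [cz_smul]
        ext i
        simp [cmb, Finset.mul_sum, mul_assoc] }

theorem cmL_apply (f : Fin l → ι → ℝ) (ξ : Fl l) : cmL f ξ = cmb f (cz l ξ) := rfl

/-- the real coordinates of `z` -/
def TT (f : Fin l → ι → ℝ) : ι ⊕ ι → (Fl l →L[ℝ] ℝ) :=
  Sum.elim (fun i => (Complex.reCLM.comp (ContinuousLinearMap.proj (R := ℝ) i)).comp (cmL f))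
    (fun i => (Complex.imCLM.comp (ContinuousLinearMap.proj (R := ℝ) i)).comp (cmL f))

/-- the real coordinates of `i z` -/
def SS (f : Fin l → ι → ℝ) : ι ⊕ ι → (Fl l →L[ℝ] ℝ) :=
  Sum.elim (fun i => -(Complex.imCLM.comp (ContinuousLinearMap.proj (R := ℝ) i)).comp (cmL f))
    (fun i => (Complex.reCLM.comp (ContinuousLinearMap.proj (R := ℝ) i)).comp (cmL f))

/-- the even coordinates -/
def xe (l : ℕ) (j : Fin l) : Fl l →L[ℝ] ℝ := EuclideanSpace.proj (EN.Std.i0 l j)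

/-- the odd coordinates -/
def ye (l : ℕ) (j : Fin l) : Fl l →L[ℝ] ℝ := EuclideanSpace.proj (EN.Std.i1 l j)

theorem sum_SS_TT {A : Matrix ι ι ℝ} {f : Fin l → ι → ℝ} (h : IsFr A f) (y : Fl l) :
    ∑ i, SS f i y • TT f i = ∑ j, (xe l j y • ye l j - ye l j y • xe l j) := by
  ext1 v
  have h1 := congrArg Complex.im (cmb_cmb h (cz l y) (cz l v))
  rw [Complex.im_sum, Complex.im_sum] at h1
  rw [_root_.sum_apply, _root_.sum_apply, Fintype.sum_sum_type,
    ← Finset.sum_add_distrib]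
  refine Eq.trans ?_ (h1.trans ?_)
  · refine Finset.sum_congr rfl fun i _ => ?_
    simp only [SS, TT, Sum.elim_inl, Sum.elim_inr, _root_.smul_apply,
      _root_.neg_apply, ContinuousLinearMap.comp_apply, cmL_apply,
      ContinuousLinearMap.proj_apply, Complex.reCLM_apply, Complex.imCLM_apply, smul_eq_mul,
      Complex.mul_im, Complex.conj_re, Complex.conj_im]
    ring
  · refine Finset.sum_congr rfl fun j _ => ?_
    simp only [xe, ye, _root_.sub_apply, _root_.smul_apply,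
      smul_eq_mul, Complex.mul_im, Complex.conj_re, Complex.conj_im, cz_re, cz_im]
    change _ = y (EN.Std.i0 l j) * v (EN.Std.i1 l j) - y (EN.Std.i1 l j) * v (EN.Std.i0 l j)
    ring

theorem sum_SS_TT_self {A : Matrix ι ι ℝ} {f : Fin l → ι → ℝ} (h : IsFr A f) (y : Fl l) :
    ∑ i, SS f i y * TT f i y = 0 := by
  have h1 := DFunLike.congr_fun (sum_SS_TT h y) y
  rw [_root_.sum_apply, _root_.sum_apply] at h1
  refine (h1.trans ?_)
  refine Finset.sum_eq_zero fun j _ => ?_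
  simp only [_root_.sub_apply, _root_.smul_apply, smul_eq_mul]
  ring

theorem nsq_fl (y : Fl l) : EN.Std.nsq (xe l) (ye l) y = ‖y‖ ^ 2 := by
  rw [EuclideanSpace.norm_sq_eq, EN.Std.sum_pairs]
  refine Finset.sum_congr rfl fun j _ => ?_
  rw [Real.norm_eq_abs, Real.norm_eq_abs, sq_abs, sq_abs]
  rfl

theorem dx_sum_xy (y : Fl l) : dx (∑ j, (xe l j y • ye l j - ye l j y • xe l j)) =
    EN.Std.lam0 (xe l) (ye l) y := by
  rw [map_sum]
  refine Finset.sum_congr rfl fun j _ => ?_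
  rw [map_sub, map_smul, map_smul]

end Lin

variable {B : Type*} {DB : Dif B} {ι : Type} [Fintype ι] [DecidableEq ι]
  {P : B → Matrix ι ι ℝ} {l : ℕ} [NeZero l]

/-- the radial plot in a fibre -/
def UU (f : Fr P l) (y : Fl l) : XS P := ev (f, ‖y‖⁻¹ • y)

variable {f : Fr P l}

theorem at_UU (hf : (dFr DB P l).At (fun _ : ℝ => f) 0) {y : Fl l} (hy : y ≠ 0) :
    (dX DB P).At (UU f) y := by
  refine map_ev (u := fun y => Co.nrm (f, y)) (Co.map_nrm (u := fun y : Fl l => (f, y)) ?_)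
  exact ⟨⟨Dif.comp _ (u := fun _ : ℝ => f) (g := fun _ : Fl l => (0 : ℝ)) (x := y) hf
      (Sm.of_contDiff contDiff_const _), Sm.of_contDiff contDiff_id _⟩,
    isOpen_ne.mem_nhds hy⟩

theorem UU_z {y : Fl l} (hy : y ≠ 0) : (UU f y).z = ‖y‖⁻¹ • cmL f.f y := by
  have h1 : ‖‖y‖⁻¹ • y‖ = 1 := by
    rw [norm_smul, norm_inv, norm_norm, inv_mul_cancel₀ (norm_ne_zero_iff.2 hy)]
  rw [UU, ev_z' _ _ h1, ← cmL_apply, map_smul]

theorem VV_UU {y : Fl l} (hy : y ≠ 0) (i : ι ⊕ ι) : VV (UU f y) i = ‖y‖⁻¹ * TT f.f i y := by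
  rcases i with i | i
  · simp only [VV, Sum.elim_inl, UU_z hy, TT]
    simp
  · simp only [VV, Sum.elim_inr, UU_z hy, TT]
    simp

theorem WW_UU {y : Fl l} (hy : y ≠ 0) (i : ι ⊕ ι) : WW (UU f y) i = ‖y‖⁻¹ * SS f.f i y := by
  rcases i with i | i
  · simp only [WW, Sum.elim_inl, UU_z hy, SS]
    simp
  · simp only [WW, Sum.elim_inr, UU_z hy, SS]
    simp

theorem et0_val (hf : (dFr DB P l).At (fun _ : ℝ => f) 0) {y : Fl l} (hy : y ≠ 0) :
    (et0 DB P).val (UU f) y = EN.Std.beta0 (xe l) (ye l) y := by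
  rw [et0, conn_val _ _ (at_UU hf hy)]
  have hρ : DifferentiableAt ℝ (fun s : Fl l => ‖s‖⁻¹) y :=
    ((contDiffAt_norm ℝ hy).differentiableAt (n := ∞) (by simp)).inv (norm_ne_zero_iff.2 hy)
  have h1 : ∀ i, fderiv ℝ (fun s => VV (UU f s) i) y =
      ‖y‖⁻¹ • TT f.f i + TT f.f i y • fderiv ℝ (fun s : Fl l => ‖s‖⁻¹) y := by
    intro i
    have h2 : (fun s => VV (UU f s) i) =ᶠ[𝓝 y] fun s => ‖s‖⁻¹ * TT f.f i s := by
      filter_upwards [isOpen_ne.mem_nhds hy] with s hs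
      exact VV_UU hs i
    rw [h2.fderiv_eq, fderiv_fun_mul hρ (TT f.f i).differentiableAt,
      ContinuousLinearMap.fderiv]
  have h3 : ∑ i, WW (UU f y) i • fderiv ℝ (fun s => VV (UU f s) i) y =
      (‖y‖ ^ 2)⁻¹ • ∑ j, (xe l j y • ye l j - ye l j y • xe l j) := by
    rw [← sum_SS_TT f.isFr y, Finset.smul_sum]
    have h4 : ∑ i, (‖y‖⁻¹ * (SS f.f i y * TT f.f i y)) •
        fderiv ℝ (fun s : Fl l => ‖s‖⁻¹) y = 0 := by
      rw [← Finset.sum_smul, ← Finset.mul_sum, sum_SS_TT_self f.isFr, mul_zero, zero_smul]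
    rw [← add_zero (∑ i, (‖y‖ ^ 2)⁻¹ • SS f.f i y • TT f.f i), ← h4, ← Finset.sum_add_distrib]
    refine Finset.sum_congr rfl fun i _ => ?_
    rw [h1, WW_UU hy, smul_add, smul_smul, smul_smul, smul_smul]
    congr 2
    · rw [sq, mul_inv]
      ring
    · ring
  rw [h3, map_smul, dx_sum_xy, EN.Std.beta0, nsq_fl]

/-- the form `η h ^ j` -/
def eh (DB : Dif B) (P : B → Matrix ι ι ℝ) (j : ℕ) : Form (dX DB P) := et DB P * (et DB P).d ^ j

theorem isDeg_et : Form.IsDeg 1 (et DB P) := by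
  refine Form.IsDeg.smul _ ?_
  unfold et0 conn
  refine Form.IsDeg.sum fun i _ => ?_
  have h1 : Form.IsDeg 0 (X3.fr _ (sm_WW (DB := DB) (P := P) i)) :=
    Form.isDeg_fn _ (sm_WW i).mp
  have h2 : Form.IsDeg 0 (X3.fr _ (sm_VV (DB := DB) (P := P) i)) :=
    Form.isDeg_fn _ (sm_VV i).mp
  exact Co.degc (h1.mul h2.d) (by omega)

theorem isDeg_pow {X : Type*} {D : Dif X} {w : Form D} {k : ℕ} (hw : Form.IsDeg k w) (n : ℕ) :
    Form.IsDeg (n * k) (w ^ n) := by
  induction n with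
  | zero => rw [pow_zero, zero_mul]; exact Form.IsDeg.one
  | succ n ih => rw [pow_succ]; exact Co.degc (ih.mul hw) (by ring)

theorem isDeg_eh (j : ℕ) : Form.IsDeg (2 * j + 1) (eh DB P j) :=
  Co.degc (isDeg_et.mul (isDeg_pow isDeg_et.d j)) (by omega)

theorem et_val (hf : (dFr DB P l).At (fun _ : ℝ => f) 0) {y : Fl l} (hy : y ≠ 0) :
    (et DB P).val (UU f) y = (2 * Real.pi)⁻¹ • EN.Std.beta0 (xe l) (ye l) y := by
  rw [et, Form.smul_val, et0_val hf hy]

theorem eh_val (hf : (dFr DB P l).At (fun _ : ℝ => f) 0) {y : Fl l} (hy : y ≠ 0) (j : ℕ) :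
    (eh DB P j).val (UU f) y = ((2 * Real.pi)⁻¹ ^ (j + 1)) • (EN.Std.beta0 (xe l) (ye l) y *
      (extd (EN.Std.beta0 (xe l) (ye l)) y) ^ j) := by
  have h0 : 0 < EN.Std.nsq (xe l) (ye l) y := by
    rw [nsq_fl]
    have := norm_pos_iff.2 hy
    positivity
  have h1 : (et DB P).val (UU f) =ᶠ[𝓝 y] fun s =>
      (2 * Real.pi)⁻¹ • EN.Std.beta0 (xe l) (ye l) s := by
    filter_upwards [isOpen_ne.mem_nhds hy] with s hs
    exact et_val hf hs
  have h2 : DifferentiableAt ℝ (EN.Std.beta0 (xe l) (ye l)) y := by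
    have k1 : DifferentiableAt ℝ (fun z => (EN.Std.nsq (xe l) (ye l) z)⁻¹) y :=
      ((EN.Std.contDiff_nsq (xe l) (ye l)).differentiable (by simp) y).inv h0.ne'
    exact k1.smul ((EN.Std.contDiff_lam0 (xe l) (ye l)).differentiable (by simp) y)
  rw [eh, Form.mul_val, pow_val' _ (at_UU hf hy), Form.d_val _ (at_UU hf hy), extd_congr h1,
    extd_const_smul _ h2, et_val hf hy, smul_pow, smul_mul_smul_comm, pow_succ' (2 * Real.pi)⁻¹ j]

theorem dx_eh_val (hf : (dFr DB P l).At (fun _ : ℝ => f) 0) (j : ℕ) (y : Fl l) :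
    (Co.dx (Form.pull ev map_ev (eh DB P j))).val (fun y : Fl l => (f, y)) y =
      dx (fderiv ℝ (fun z => EN.Std.chr (EN.Std.nsq (xe l) (ye l) z)) y) *
      (eh DB P j).val (UU f) y := by
  have hF : (Co.D1 (dFr DB P l) (Fl l)).At (fun y : Fl l => (f, y)) y :=
    ⟨Dif.comp _ (u := fun _ : ℝ => f) (g := fun _ : Fl l => (0 : ℝ)) (x := y) hf
      (Sm.of_contDiff contDiff_const _), Sm.of_contDiff contDiff_id _⟩
  have h1 : (Co.chf (dFr DB P l) (Fl l)).d.val (fun y : Fl l => (f, y)) y =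
      dx (fderiv ℝ (fun z => EN.Std.chr (EN.Std.nsq (xe l) (ye l) z)) y) := by
    rw [Form.d_val _ hF]
    have h2 : (Co.chf (dFr DB P l) (Fl l)).val (fun y : Fl l => (f, y)) =
        Fm.fn (fun z => EN.Std.chr (EN.Std.nsq (xe l) (ye l) z)) := by
      funext s
      have hs : (Co.D1 (dFr DB P l) (Fl l)).At (fun y : Fl l => (f, y)) s :=
        ⟨Dif.comp _ (u := fun _ : ℝ => f) (g := fun _ : Fl l => (0 : ℝ)) (x := s) hf
          (Sm.of_contDiff contDiff_const _), Sm.of_contDiff contDiff_id _⟩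
      rw [Co.chf, Form.fn_val _ _ hs, Fm.fn, nsq_fl]
      rfl
    rw [h2, extd_fn]
    exact ((EN.Std.contDiff_chr.comp (EN.Std.contDiff_nsq (xe l) (ye l))).differentiable
      (by simp) y)
  rw [Co.dx, Form.mx_val, h1]
  by_cases hy : y = 0
  · subst hy
    have h3 : fderiv ℝ (fun z => EN.Std.chr (EN.Std.nsq (xe l) (ye l) z)) 0 = 0 := by
      have h4 : (fun z : Fl l => EN.Std.chr (EN.Std.nsq (xe l) (ye l) z)) =ᶠ[𝓝 0] fun _ => 0 := by
        have h5 : ContinuousAt (EN.Std.nsq (xe l) (ye l)) 0 :=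
          (EN.Std.contDiff_nsq _ _).continuous.continuousAt
        have h6 : EN.Std.nsq (xe l) (ye l) 0 < 1 / 2 := by
          rw [nsq_fl]
          simp
        filter_upwards [h5.eventually (gt_mem_nhds h6)] with z hz
        exact EN.Std.chr_zero hz.le
      rw [h4.fderiv_eq]
      simp
    rw [h3, map_zero, zero_mul, zero_mul]
  · have h4 : (Co.PB (dFr DB P l) (Fl l)).At (fun y : Fl l => (f, y)) y :=
      ⟨hF, isOpen_ne.mem_nhds hy⟩
    rw [Form.pull_val _ _ h4, Form.pull_val _ _ (Co.map_nrm h4)]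
    rfl

theorem xe_basis (j : Fin l) (i : Fin (2 * l)) :
    xe l j ((EuclideanSpace.basisFun (Fin (2 * l)) ℝ) i) =
      if (i : ℕ) = 2 * (j : ℕ) then 1 else 0 := by
  rw [EuclideanSpace.basisFun_apply]
  change EuclideanSpace.single i (1 : ℝ) (EN.Std.i0 l j) = _
  rw [PiLp.single_apply]
  refine if_congr ?_ rfl rfl
  rw [Fin.ext_iff]
  exact ⟨fun h => h.symm, fun h => h.symm⟩

theorem ye_basis (j : Fin l) (i : Fin (2 * l)) :
    ye l j ((EuclideanSpace.basisFun (Fin (2 * l)) ℝ) i) =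
      if (i : ℕ) = 2 * (j : ℕ) + 1 then 1 else 0 := by
  rw [EuclideanSpace.basisFun_apply]
  change EuclideanSpace.single i (1 : ℝ) (EN.Std.i1 l j) = _
  rw [PiLp.single_apply]
  refine if_congr ?_ rfl rfl
  rw [Fin.ext_iff]
  exact ⟨fun h => h.symm, fun h => h.symm⟩

/-- the fibre integral is computed in the standard orthonormal basis -/
abbrev ob (l : ℕ) : OrthonormalBasis (Fin (2 * l)) ℝ (Fl l) :=
  EuclideanSpace.basisFun (Fin (2 * l)) ℝ

theorem integral_eh (hl : 1 ≤ l) (hf : (dFr DB P l).At (fun _ : ℝ => f) 0) :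
    ∫ y : Fl l, evalForm ((Co.dx (Form.pull ev map_ev (eh DB P (l - 1)))).val
      (fun y : Fl l => (f, y)) y) (ob l) = 1 := by
  obtain ⟨m, rfl⟩ : ∃ m, l = m + 1 := ⟨l - 1, by omega⟩
  have h1 : ∀ y : Fl (m + 1), evalForm ((Co.dx (Form.pull ev map_ev
      (eh DB P (m + 1 - 1)))).val (fun y : Fl (m + 1) => (f, y)) y) (ob (m + 1)) =
      ((2 * Real.pi) ^ (m + 1))⁻¹ * (deriv EN.Std.chr (‖y‖ ^ 2) *
        (2 ^ (m + 1) * (m.factorial : ℝ) * ((‖y‖ ^ 2) ^ m)⁻¹)) := by
    intro y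
    rw [dx_eh_val hf]
    by_cases hy : y = 0
    · subst hy
      have h2 : deriv EN.Std.chr (‖(0 : Fl (m + 1))‖ ^ 2) = 0 :=
        EN.Std.deriv_chr_le (by rw [norm_zero]; norm_num)
      have h3 : fderiv ℝ (fun z => EN.Std.chr (EN.Std.nsq (xe (m + 1)) (ye (m + 1)) z)) 0 = 0 := by
        have h4 : (fun z : Fl (m + 1) => EN.Std.chr (EN.Std.nsq (xe (m + 1)) (ye (m + 1)) z))
            =ᶠ[𝓝 0] fun _ => 0 := by
          have h5 : ContinuousAt (EN.Std.nsq (xe (m + 1)) (ye (m + 1))) 0 :=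
            (EN.Std.contDiff_nsq _ _).continuous.continuousAt
          have h6 : EN.Std.nsq (xe (m + 1)) (ye (m + 1)) 0 < 1 / 2 := by
            rw [nsq_fl]
            simp
          filter_upwards [h5.eventually (gt_mem_nhds h6)] with z hz
          exact EN.Std.chr_zero hz.le
        rw [h4.fderiv_eq]
        simp
      rw [h3, map_zero, zero_mul, h2, zero_mul, mul_zero, evalForm_apply, map_zero, map_zero]
    · have h0 : 0 < EN.Std.nsq (xe (m + 1)) (ye (m + 1)) y := by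
        rw [nsq_fl]
        have := norm_pos_iff.2 hy
        positivity
      have h7 := EN.Std.integrand_eq (xe (m + 1)) (ye (m + 1)) (χ := EN.Std.chr)
        (by omega) h0 (EN.Std.contDiff_chr.differentiable (by simp) _) (ob (m + 1)).toBasis
        (fun j i => by rw [OrthonormalBasis.coe_toBasis]; exact xe_basis j i)
        (fun j i => by rw [OrthonormalBasis.coe_toBasis]; exact ye_basis j i)
      rw [OrthonormalBasis.coe_toBasis] at h7
      have h8 : ∀ (c : ℝ) (w : Lam (Fl (m + 1))), evalForm (c • w) (ob (m + 1)) =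
          c * evalForm w (ob (m + 1)) := by
        intro c w
        simp only [evalForm_apply, map_smul, smul_eq_mul]
      rw [eh_val hf hy, mul_smul_comm, h8, h7, nsq_fl, Nat.add_sub_cancel, inv_pow]
  simp only [h1]
  rw [integral_const_mul]
  have h9 := EN.Std.density_integral m
  rw [← (PiLp.volume_preserving_toLp (Fin (2 * (m + 1)))).integral_comp
      (MeasurableEquiv.toLp 2 _).measurableEmbedding]
  have h10 : ∀ y : Fin (2 * (m + 1)) → ℝ,
      ‖(MeasurableEquiv.toLp 2 (Fin (2 * (m + 1)) → ℝ)) y‖ ^ 2 = ∑ i, y i ^ 2 := by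
    intro y
    rw [EuclideanSpace.norm_sq_eq]
    refine Finset.sum_congr rfl fun i _ => ?_
    rw [Real.norm_eq_abs, sq_abs]
    rfl
  have h11 : (∫ y : Fin (2 * (m + 1)) → ℝ,
      deriv EN.Std.chr (‖(MeasurableEquiv.toLp 2 (Fin (2 * (m + 1)) → ℝ)) y‖ ^ 2) *
        (2 ^ (m + 1) * (m.factorial : ℝ) *
        ((‖(MeasurableEquiv.toLp 2 (Fin (2 * (m + 1)) → ℝ)) y‖ ^ 2) ^ m)⁻¹)) =
      (2 * Real.pi) ^ (m + 1) := by
    simp only [h10]
    exact h9
  refine (congrArg (((2 * Real.pi) ^ (m + 1))⁻¹ * ·) h11).trans ?_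
  exact inv_mul_cancel₀ (by positivity)

/-- **the fibre integral of `η h ^ (l - 1)` is one** -/
theorem SI_top (h : Pj DB P l) : (bun h).SI (ob l) (eh DB P (l - 1)) = 1 := by
  have hl : 1 ≤ l := Nat.one_le_iff_ne_zero.2 (NeZero.ne l)
  have h1 := SI_const (ob l) (bun h) (w := eh DB P (l - 1))
    (Co.degc (isDeg_eh (l - 1)) (by omega)) (by omega) 1 fun f hf => integral_eh hl hf
  rw [h1, map_one]

/-- **the fibre integral of `η h ^ j` vanishes for `j < l - 1`** -/
theorem SI_low (h : Pj DB P l) {j : ℕ} (hj : j < l - 1) :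
    (bun h).SI (ob l) (eh DB P j) = 0 :=
  (bun h).SI_eq_zero (ob l) (isDeg_eh j) (by omega)

end

end Vale.Agent.P231.XC
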