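import Vale.Agent.P231.XC.Eta
import Vale.Agent.P231.Co.SIFib

/-!
# P231, stage 3: fibre integrals of forms of the degree of the fibre, as integrals
-/

set_option linter.unusedSectionVars false
set_option linter.unusedVariables false

open MeasureTheory Set Module Filter Topology
open scoped ContDiff

namespace Vale.Agent.P231.XC

open Vale.Agent.P231.Fm Vale.Agent.P231.W Vale.Agent.P231.H584 Vale.Agent.P231.Co
open Vale.Agent.P231.Fm (Sm Dif Form Lam)

section Zero

variable {E F : Type} [NormedAddCommGroup E] [NormedSpace ℝ E] [FiniteDimensional ℝ E]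
  [NormedAddCommGroup F] [NormedSpace ℝ F] [FiniteDimensional ℝ F]

theorem pull_zero_map (w : Lam F) : Fm.pull (0 : E →L[ℝ] F) w = algebraMap ℝ (Lam E) (aug w) := by
  have h : Fm.pull (0 : E →L[ℝ] F) = (Algebra.ofId ℝ (Lam E)).comp (aug (E := F)) :=
    Lam.algHom_ext fun a => by
      rw [← dx_eq]
      simp
  exact DFunLike.congr_fun h w

end Zero

variable {F : Type} [NormedAddCommGroup F] [InnerProductSpace ℝ F] [FiniteDimensional ℝ F]
  [MeasurableSpace F] [BorelSpace F] {m : ℕ} (o : OrthonormalBasis (Fin m) ℝ F)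

/-- fibre integrals over a point -/
theorem ptv_fi {X : Type*} {D : Dif X} {w : Form (D.prod (Dif.lin F))} {R : ℝ} (hw : w.VC R)
    {f : X} (hf : D.At (fun _ : ℝ => f) 0) :
    WF.ptv (Form.fi o w) f = ∫ y, evalForm (w.val (fun y : F => (f, y)) y) o := by
  have hF : ∀ y : F, (D.prod (Dif.lin F)).At (fun y : F => (f, y)) y := fun y =>
    ⟨Dif.comp D (u := fun _ : ℝ => f) (g := fun _ : F => (0 : ℝ)) (x := y) hf
      (Sm.of_contDiff contDiff_const _), Sm.of_contDiff contDiff_id _⟩
  rw [WF.ptv, Form.fi_val hw hf, fib]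
  have h1 : ∀ y : F, slice (E := ℝ) o (w.val (cylF fun _ : ℝ => f) (0, y)) =
      (evalForm (w.val (fun y : F => (f, y)) y) o) • (1 : Lam ℝ) := by
    intro y
    have h2 : w.val (cylF fun _ : ℝ => f) (0, y) =
        Fm.pull (ContinuousLinearMap.snd ℝ ℝ F) (w.val (fun y : F => (f, y)) y) := by
      have e1 : (cylF fun _ : ℝ => f) = (fun y : F => (f, y)) ∘ (Prod.snd : ℝ × F → F) := rfl
      rw [e1, w.nat (u := fun y : F => (f, y)) (g := (Prod.snd : ℝ × F → F)) (x := ((0 : ℝ), y))
        (hF y) (Sm.of_contDiff contDiff_snd _), fderiv_snd]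
    rw [h2, slice_apply, pull_cont, ← pull_comp_apply]
    have e2 : (ContinuousLinearMap.snd ℝ ℝ F).comp (ContinuousLinearMap.inl ℝ ℝ F) = 0 := by
      ext; simp
    have e3 : (fun i => (ContinuousLinearMap.snd ℝ ℝ F) (vert o i)) = o := by
      funext i; rfl
    rw [e2, e3, pull_zero_map, Algebra.algebraMap_eq_smul_one]
    rfl
  simp only [h1]
  rw [integral_smul_const, map_smul, map_one, smul_eq_mul, mul_one]

variable {B S Fr : Type*} {DB : Dif B} {DS : Dif S} {DF : Dif Fr}
variable {π : S → B} {q : Fr → B} {ev : Fr × F → S}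

/-- fibre integrals of forms of the degree of the fibre -/
theorem SI_const (h : Bun DB DS DF F π q ev) {w : Form DS} (hw : Form.IsDeg (m - 1) w)
    (hm : 1 ≤ m) (c : ℝ)
    (hc : ∀ f : Fr, DF.At (fun _ : ℝ => f) 0 →
      ∫ y : F, evalForm ((Co.dx (Form.pull ev h.hev w)).val (fun y : F => (f, y)) y) o = c) :
    h.SI o w = algebraMap ℝ (Form DB) c := by
  refine pull_inj h.hq ?_
  have h3 : Form.pull q h.hq.map (algebraMap ℝ (Form DB) c) = algebraMap ℝ (Form DF) c :=
    (Form.pullA q h.hq.map).commutes c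
  rw [h.pull_SI o, h3]
  have hd : Form.IsDeg 0 (si o (Form.pull ev h.hev w)) :=
    isDeg_si o (hw.pull ev h.hev) (by omega)
  refine Form.ext_val fun E _ _ _ u x hu => ?_
  have hf : DF.At (fun _ : ℝ => u x) 0 := Dif.comp DF (u := u) (g := fun _ : ℝ => x) (x := 0) hu
    (Sm.of_contDiff contDiff_const _)
  rw [WF.val_of_isDeg_zero (DegC.toWF hd) hu, si, ptv_fi o (vc_of_van (vc_dx _)) hf, hc _ hf,
    Algebra.algebraMap_eq_smul_one (A := Form DF), Form.smul_val, Form.one_val hu,
    Algebra.algebraMap_eq_smul_one]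

end Vale.Agent.P231.XC
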