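import Vale.Agent.P231.S2T.Cls
import Vale.Agent.P231.X3.Cplx
import Vale.Agent.P231.FE.Orn

/-!
# P231, stage 3: the unit sphere bundle `X = S(ξ ⊗ ℂ)` of a flow-invariant smooth field of
projections `P` of rank `l` on a base `B`, with its two flows
-/

set_option linter.unusedSectionVars false
set_option linter.unusedVariables false

open Matrix Set Filter Topology
open scoped ContDiff

namespace Vale.Agent.P231.XC

open Fm W ChW X3

noncomputable section

variable {B : Type*} {DB : Dif B} {ι : Type} [Fintype ι] [DecidableEq ι]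

/-- a smooth field of orthogonal projections of rank `l` -/
structure Pj (DB : Dif B) (P : B → Matrix ι ι ℝ) (l : ℕ) : Prop where
  sm : SmM DB P
  idem : ∀ b, P b * P b = P b
  symm : ∀ b, (P b)ᵀ = P b
  tr : ∀ b, trace (P b) = l

/-- the unit sphere bundle of `range P ⊗ ℂ` -/
def XS (P : B → Matrix ι ι ℝ) : Type _ :=
  {p : B × (ι → ℂ) // cplx (P p.1) *ᵥ p.2 = p.2 ∧ Uni p.2}

/-- constructor -/
def XS.mk {P : B → Matrix ι ι ℝ} (b : B) (z : ι → ℂ) (h1 : cplx (P b) *ᵥ z = z) (h2 : Uni z) : XS P :=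
  ⟨(b, z), h1, h2⟩

/-- its diffeology -/
def dX (DB : Dif B) (P : B → Matrix ι ι ℝ) : Dif (XS P) :=
  (DB.prod (Dif.lin (ι → ℂ))).ind Subtype.val

namespace XS

variable {P : B → Matrix ι ι ℝ}

/-- the base point -/
def b (p : XS P) : B := p.1.1

/-- the vector -/
def z (p : XS P) : ι → ℂ := p.1.2

@[simp] theorem mk_b (b : B) (z : ι → ℂ) (h1 : cplx (P b) *ᵥ z = z) (h2 : Uni z) :
    (XS.mk b z h1 h2).b = b := rfl

@[simp] theorem mk_z (b : B) (z : ι → ℂ) (h1 : cplx (P b) *ᵥ z = z) (h2 : Uni z) :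
    (XS.mk b z h1 h2).z = z := rfl

theorem Pz (p : XS P) : cplx (P p.b) *ᵥ p.z = p.z := p.2.1

theorem uni (p : XS P) : Uni p.z := p.2.2

theorem ext {p q : XS P} (h1 : p.b = q.b) (h2 : p.z = q.z) : p = q :=
  Subtype.ext (Prod.ext h1 h2)

end XS

variable {P : B → Matrix ι ι ℝ}

theorem map_b : (dX DB P).Map DB XS.b := fun h => h.1

theorem map_z : (dX DB P).Map (Dif.lin (ι → ℂ)) XS.z := fun h => h.2

theorem sm_z (i : ι) : SmF (dX DB P) (fun p => p.z i) :=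
  SmF.of fun {E} _ _ _ {u x} h => by
    filter_upwards [map_z h] with y hy
    exact (contDiffAt_pi.1 hy) i

/-! ### the rotation -/

theorem mulVec_smul_cplx (A : Matrix ι ι ℂ) (c : ℂ) (z : ι → ℂ) :
    A *ᵥ (c • z) = c • (A *ᵥ z) := Matrix.mulVec_smul A c z

theorem uni_smul {c : ℂ} (hc : (starRingEnd ℂ) c * c = 1) {z : ι → ℂ} (hz : Uni z) :
    Uni (c • z) := by
  unfold Uni at hz ⊢
  rw [← hz]
  refine Finset.sum_congr rfl fun j _ => ?_
  rw [Pi.smul_apply, smul_eq_mul, map_mul]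
  linear_combination (starRingEnd ℂ) (z j) * z j * hc

/-- the rotation flow, of period one -/
def rot (q : XS P × ℝ) : XS P :=
  ⟨(q.1.b, Cor.ph (2 * Real.pi * q.2) • q.1.z), by
    refine ⟨?_, uni_smul (ph_conj _) q.1.uni⟩
    change cplx (P q.1.b) *ᵥ (Cor.ph (2 * Real.pi * q.2) • q.1.z) = _
    rw [Matrix.mulVec_smul, q.1.Pz]⟩

@[simp] theorem rot_b (q : XS P × ℝ) : (rot q).b = q.1.b := rfl

@[simp] theorem rot_z (q : XS P × ℝ) : (rot q).z = Cor.ph (2 * Real.pi * q.2) • q.1.z := rfl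

theorem contDiff_ph : ContDiff ℝ ∞ Cor.ph := by
  unfold Cor.ph
  exact ((Complex.ofRealCLM.contDiff.comp Real.contDiff_cos).add
    ((Complex.ofRealCLM.contDiff.comp Real.contDiff_sin).mul contDiff_const))

theorem map_rot : ((dX DB P).prod (Dif.lin ℝ)).Map (dX DB P) rot := fun {E} _ _ _ {u x} h => by
  refine ⟨h.1.1, ?_⟩
  change Sm (fun y => Cor.ph (2 * Real.pi * (u y).2) • (u y).1.z) x
  have h1 : Sm (fun y => (u y).2) x := h.2
  have h2 : Sm (fun y => (u y).1.z) x := map_z h.1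
  filter_upwards [h1, h2] with y hy1 hy2
  exact (contDiff_ph.contDiffAt.comp y (contDiffAt_const.mul hy1)).smul hy2

theorem ph_zero : Cor.ph 0 = 1 := by simp [Cor.ph]

theorem ph_add (s t : ℝ) : Cor.ph (s + t) = Cor.ph s * Cor.ph t := by
  simp only [Cor.ph, Real.cos_add, Real.sin_add]
  push_cast
  linear_combination -(Complex.sin s * Complex.sin t) * Complex.I_sq

theorem ph_two_pi : Cor.ph (2 * Real.pi) = 1 := by simp [Cor.ph]

theorem isFlow_rot : IsFlow (dX DB P) 1 rot where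
  map := map_rot
  zero p := XS.ext rfl (by rw [rot_z, mul_zero, ph_zero, one_smul])
  add p s t := XS.ext rfl (by
    rw [rot_z, rot_z, rot_z, smul_smul, ← ph_add]
    congr 2
    ring)
  per p := XS.ext rfl (by rw [rot_z, mul_one, ph_two_pi, one_smul])

/-! ### the lifted flow -/

variable {φ : B × ℝ → B}

/-- the lifted flow -/
def lft (φ : B × ℝ → B) (hP : ∀ b t, P (φ (b, t)) = P b) (q : XS P × ℝ) : XS P :=
  ⟨(φ (q.1.b, q.2), q.1.z), by
    refine ⟨?_, q.1.uni⟩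
    change cplx (P (φ (q.1.b, q.2))) *ᵥ q.1.z = q.1.z
    rw [hP, q.1.Pz]⟩

@[simp] theorem lft_b (hP : ∀ b t, P (φ (b, t)) = P b) (q : XS P × ℝ) :
    (lft φ hP q).b = φ (q.1.b, q.2) := rfl

@[simp] theorem lft_z (hP : ∀ b t, P (φ (b, t)) = P b) (q : XS P × ℝ) :
    (lft φ hP q).z = q.1.z := rfl

theorem map_lft (hP : ∀ b t, P (φ (b, t)) = P b) (hφ : (DB.prod (Dif.lin ℝ)).Map DB φ) :
    ((dX DB P).prod (Dif.lin ℝ)).Map (dX DB P) (lft φ hP) := fun {E} _ _ _ {u x} h =>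
  ⟨hφ (u := fun y => ((u y).1.b, (u y).2)) ⟨map_b h.1, h.2⟩,
    map_z (DB := DB) (u := fun y => (u y).1) h.1⟩

theorem isFlow_lft (hP : ∀ b t, P (φ (b, t)) = P b) {T : ℝ} (hφ : IsFlow DB T φ) :
    IsFlow (dX DB P) T (lft φ hP) where
  map := map_lft hP hφ.map
  zero p := XS.ext (by rw [lft_b, hφ.zero]) rfl
  add p s t := XS.ext (by rw [lft_b, lft_b, hφ.add]; rfl) rfl
  per p := XS.ext (by rw [lft_b, hφ.per]) rfl

theorem lft_rot (hP : ∀ b t, P (φ (b, t)) = P b) (p : XS P) (s t : ℝ) :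
    lft φ hP (rot (p, s), t) = rot (lft φ hP (p, t), s) := rfl

/-- the doubled flow: period `2 T` -/
def dbl (φ : B × ℝ → B) (hP : ∀ b t, P (φ (b, t)) = P b) (T : ℝ) (q : XS P × ℝ) : XS P :=
  rot (lft φ hP q, (2 * T)⁻¹ * q.2)

theorem dbl_b (hP : ∀ b t, P (φ (b, t)) = P b) (T : ℝ) (q : XS P × ℝ) :
    (dbl φ hP T q).b = φ (q.1.b, q.2) := rfl

theorem dbl_z (hP : ∀ b t, P (φ (b, t)) = P b) (T : ℝ) (q : XS P × ℝ) :
    (dbl φ hP T q).z = Cor.ph (2 * Real.pi * ((2 * T)⁻¹ * q.2)) • q.1.z := rfl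

theorem map_dbl (hP : ∀ b t, P (φ (b, t)) = P b) (hφ : (DB.prod (Dif.lin ℝ)).Map DB φ) (T : ℝ) :
    ((dX DB P).prod (Dif.lin ℝ)).Map (dX DB P) (dbl φ hP T) := fun {E} _ _ _ {u x} h =>
  map_rot (u := fun y => (lft φ hP (u y), (2 * T)⁻¹ * (u y).2)) ⟨map_lft hP hφ h, by
    have h2 : Sm (fun y => (u y).2) x := h.2
    filter_upwards [h2] with y hy
    exact contDiffAt_const.mul hy⟩

theorem isFlow_dbl (hP : ∀ b t, P (φ (b, t)) = P b) {T : ℝ} (hT : T ≠ 0)
    (hφ : IsFlow DB T φ) : IsFlow (dX DB P) (2 * T) (dbl φ hP T) where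
  map := map_dbl hP hφ.map T
  zero p := XS.ext (by rw [dbl_b, hφ.zero]) (by
    rw [dbl_z, mul_zero, mul_zero, ph_zero, one_smul])
  add p s t := XS.ext (by rw [dbl_b, dbl_b, dbl_b, hφ.add]) (by
    rw [dbl_z, dbl_z, dbl_z, smul_smul, ← ph_add]
    congr 2
    ring)
  per p := XS.ext (by
    rw [dbl_b]
    change φ (p.b, 2 * T) = p.b
    rw [two_mul, ← hφ.add, hφ.per, hφ.per]) (by
    rw [dbl_z]
    change Cor.ph (2 * Real.pi * ((2 * T)⁻¹ * (2 * T))) • p.z = p.z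
    rw [inv_mul_cancel₀ (by simpa using hT), mul_one, ph_two_pi, one_smul])

/-- the two flows: `true` is the lifted flow, `false` is the rotation -/
def fam (φ : B × ℝ → B) (hP : ∀ b t, P (φ (b, t)) = P b)
    (hφ : (DB.prod (Dif.lin ℝ)).Map DB φ) : S2T.Fam (dX DB P) Bool where
  Φ i := if i then lft φ hP else rot
  map i := by
    cases i
    · exact map_rot
    · exact map_lft hP hφ

end

end Vale.Agent.P231.XC
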